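import Vale.Agent.P281Z.Gr.Defs
import Vale.Agent.P281Z.Ha.Defs

/-!
# P281Z, block REG: the Cousin problem for vertical principal parts of top forms
-/

open scoped Manifold ContDiff Topology ENNReal
open Set Filter MeasureTheory
open Vale.Agent.P272.K Vale.Agent.P285.H281.FD Vale.Agent.P284.H608.K
open Vale.Agent.P277Z (Hol)
open Vale.Agent.P281Z.Gr (SecOn)
open Vale.Agent.P281Z.Ha (WCl Psd Cl tV sh)

noncomputable section

namespace Vale.Agent.P281Z.Rg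

/-! ### The engine on complete manifolds -/

/-- A statement for all `M` of positive dimension. -/
def ForC (P : ∀ (r : ℕ) (M : Type) [TopologicalSpace M] [MeasurableSpace M],
    KA (r + 1) M → Prop) : Prop :=
  ∀ (r : ℕ) (M : Type) [TopologicalSpace M] [T2Space M] [SigmaCompactSpace M] [MeasurableSpace M]
    [BorelSpace M] (K : KA (r + 1) M), P r M K

/-- **WCC** -/
def WCC : Prop := ForC fun _ _ _ _ K => ∀ u, Cl K u → WCl K (tV K (sh K u))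

/-- **DENC**: closed forms which are orthogonal to the harmonic forms are limits of exact forms -/
def DENC : Prop := ForC fun r _ _ _ K => Nonempty K.Cut → Psd K → ∀ η : K.Fm r, K.IsForm η →
  K.Smooth η → K.nl η < ⊤ → WCl K η →
  (∀ g : K.Fm r, K.IsForm g → K.Hol g → K.nl g < ⊤ → K.dh g = 0 →
    (∀ i, ∀ z ∈ (K.e i).target, Ad (K.w i z) (cHess (K.φ i) z) (g i z) = 0) → K.ip η g = 0) →
  ∃ v : ℕ → K.Fm (r + 1), (∀ k, K.Test (v k)) ∧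
    Tendsto (fun k => K.nl (K.S (v k) - η)) atTop (𝓝 0)

/-! ### Top forms -/

section

variable (n : ℕ) {X : Type} [TopologicalSpace X] [ChartedSpace (Cm n) X]

/-- smooth top forms over `O` -/
structure SmT (O : Set X) (u : Chart n X → X → ℂ) : Prop where
  sm : ∀ e, ∀ x ∈ O, At e x → ContDiffAt ℝ ∞ (fun z => u e (e.symm z)) (e x)
  chg : ∀ e e', ∀ x ∈ O, At e x → At e' x → u e x = (jacM e e' x).det * u e' x

/-- holomorphic top forms over `O` -/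
abbrev HoT (O : Set X) (u : Chart n X → X → ℂ) : Prop := SecOn n (Bd.can n X) O u

variable {n}

/-- the square of the `L²` norm of `∂̄ a` on `K`, in the chart `e` -/
def dq (e : Chart n X) (K : Set X) (a : X → ℂ) : ℝ≥0∞ :=
  ∫⁻ z in e '' K, ∑ b, ‖dzb b (fun y => a (e.symm y)) z‖ₑ ^ 2

end

/-- the situation: `P` is a closed set which lies over the hypersurface `τ = 0` -/
structure Sit {n w : ℕ} (Z : Mf n) (W : Mf w) (f : Z.X → W.X) (y₀ : W.X) (O : Set W.X)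
    (τ : W.X → ℂ) (P : Set Z.X) : Prop where
  kah : Z.Kah
  hol : HolM n w f
  opn : IsOpen O
  mem : y₀ ∈ O
  τhol : ∀ y ∈ O, Hol w τ y
  τne : ∀ x ∉ P, f x ∈ O → ∃ᶠ x' in 𝓝 x, τ (f x') ≠ 0
  cls : IsClosed P
  sub : ∀ x ∈ P, f x ∈ O → τ (f x) = 0

/-- **TAK**: `∂̄ u₀` is a limit of exact forms -/
def TAK : Prop :=
  ∀ (n w : ℕ) (Z : Mf n) (W : Mf w) (f : Z.X → W.X) (y₀ : W.X) (O : Set W.X) (τ : W.X → ℂ)
    (P N : Set Z.X) (u₀ : Chart n Z.X → Z.X → ℂ), Sit Z W f y₀ O τ P → IsOpen N →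
    P ∩ f ⁻¹' O ⊆ N → SmT n (f ⁻¹' O \ P) u₀ → HoT n (N \ P) u₀ →
    ∃ (O' : Set W.X) (u : ℕ → Chart n Z.X → Z.X → ℂ), IsOpen O' ∧ y₀ ∈ O' ∧ O' ⊆ O ∧
      (∀ k, SmT n (f ⁻¹' O') (u k)) ∧
      ∀ e ∈ atlas (Cm n) Z.X, ∀ K, IsCompact K → K ⊆ e.source ∩ f ⁻¹' O' →
        (K ⊆ Pᶜ → Tendsto (fun k => dq e K fun x => u k e x - u₀ e x) atTop (𝓝 0)) ∧
        (K ⊆ N → Tendsto (fun k => dq e K (u k e)) atTop (𝓝 0))

/-- **CRC**: limits of coboundaries are coboundaries near a fibre -/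
def CRC : Prop :=
  ∀ (n p : ℕ) (V : Mf n) (Y : Mf p) (f : V.X → Y.X) (L : Bd V.X) (y₀ : Y.X) (I : Type) [Fintype I]
    (U : I → Set V.X) (c : I → I → L.ι → V.X → ℂ) (h : ℕ → I → L.ι → V.X → ℂ), HolM n p f →
    IsLB n L → (∀ i, IsOpen (U i)) → (∀ x, f x = y₀ → ∃ i, x ∈ U i) →
    (∀ i j, SecOn n L (U i ∩ U j) (c i j)) → (∀ k i, SecOn n L (U i) (h k i)) →
    (∀ i j a, TendstoLocallyUniformlyOn (fun k x => h k i a x - h k j a x) (c i j a) atTop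
      (U i ∩ U j ∩ L.U a)) →
    ∃ O, IsOpen O ∧ y₀ ∈ O ∧ ∃ g : I → L.ι → V.X → ℂ, (∀ i, SecOn n L (U i ∩ f ⁻¹' O) (g i)) ∧
      ∀ i j a x, x ∈ U i → x ∈ U j → x ∈ L.U a → f x ∈ O → g i a x - g j a x = c i j a x

/-- **TF**: the Cousin problem -/
def TF : Prop :=
  ∀ (n w : ℕ) (Z : Mf n) (W : Mf w) (f : Z.X → W.X) (y₀ : W.X) (O : Set W.X) (τ : W.X → ℂ)
    (P D : Set Z.X) (b : Chart n Z.X → Z.X → ℂ), Sit Z W f y₀ O τ P → IsClosed D →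
    (∀ x ∈ P, x ∈ D → f x ≠ y₀) → HoT n (f ⁻¹' O \ (P ∪ D)) b →
    ∃ (O' : Set W.X) (H R : Chart n Z.X → Z.X → ℂ), IsOpen O' ∧ y₀ ∈ O' ∧ O' ⊆ O ∧
      HoT n (f ⁻¹' O' \ P) H ∧ HoT n (f ⁻¹' O' \ D) R ∧
      ∀ e x, At e x → f x ∈ O' → x ∉ P → x ∉ D → b e x = H e x + R e x

end Vale.Agent.P281Z.Rg
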