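import Vale.Agent.P281Z.Rg.Sk
import Vale.Agent.P281Z.Lv.Nut
import Vale.Agent.P281Z.Lv.Tr
import Vale.Agent.P281Z.Lv.Rel

/-!
# P281Z, block REG: the residues on the strata of a fibre
-/

open scoped Manifold ContDiff Topology ENNReal ComplexConjugate
open Set Filter MeasureTheory Function
open Vale.Agent.P272.K Vale.Agent.P284.H608.K
open Vale.Agent.P277Z (Hol at_chart)
open Vale.Agent.P281Z.Hg (PC IsPC FibHol)
open Vale.Agent.P281Z.Ha Vale.Agent.P281Z.Lg Vale.Agent.P281Z.Pk Vale.Agent.P281Z.Lv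

noncomputable section

namespace Vale.Agent.P281Z.Rg

namespace Br

open Mg

variable {w d m : ℕ} {B : Bs w} {C : Et B d 1} [LinearOrder C.κ] {A : Dt C} {i : B.l.ι} {y : B.W.X}
  (S : Slc A.L C.g (B.ch i) y) {lam : B.l.ι → A.L.B → C.X.X → ℂ} (h : A.Lam lam)
  (hy : y ∈ B.l.U i) (hQ : y ∉ C.Q) {c : (S.F.K m).I} {z : (S.F.Y m).X}

theorem pc (c : (S.F.K m).I) : IsPC (gm A.L C.g m) (pq A.L (B.ch i) (S.par c)) :=
  (S.pc m c).isPC S.at'.1

include hy hQ

theorem memO (k : S.j z ∈ off (tr A m)) : S.j z ∈ (se A lam m).O i :=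
  ⟨show gm A.L C.g m (S.j z) ∈ B.l.U i \ C.Q from (S.gm_j z).symm ▸ ⟨hy, hQ⟩, k⟩

theorem ae_O : ∀ᵐ z ∂(S.F.K m).μ, S.j z ∈ (se A lam m).O i := by
  filter_upwards [Hy.ae S hQ m, S.F.ae_ne] with z a b
  refine memO S hy hQ fun l k => ?_
  obtain ⟨c, hc⟩ := (S.F.K m).cover z
  by_cases e : A.a l = -1 ∧ 0 < A.b l
  · exact b c hc (Finset.prod_eq_zero (Finset.mem_univ l) ((Hy.zt_eq S hc l).symm.trans
      (((A.geo.co _ _ _ (S.src' hc) l).2 k.1).1 (pol_mem.2 ⟨e, k.2⟩))))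
  · exact a ⟨l, e, S.pt m z ▸ k.2⟩

include h

theorem top : Top _ (rf lam S m) := S.F.top_fm (S.F.num_nm (by
  rintro β β' _ ⟨z, rfl⟩ a a'
  rw [S.U] at a a'
  rw [S.G]
  exact (h.hol i).chg _ _ _ (show C.g _ ∈ B.l.U i \ C.Q from (Hy.fib S z).symm ▸ ⟨hy, hQ⟩) a a'))

theorem key (hz : z ∈ ((S.F.K m).e c).source) : rf lam S m c ((S.F.K m).e c z) =
    (-1) ^ (w * m) * rl 1 (B.ch i) (gm A.L C.g m) (tz A.L (w + m) (lam i))
      (pq A.L (B.ch i) (S.par c)) (S.j z) := by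
  have h2 := rel_pq A.geo.tri S.at'.1 (h.hol i).chg (S.pc m c)
    (show gm A.L C.g m (S.j z) ∈ B.l.U i \ C.Q from (S.gm_j z).symm ▸ ⟨hy, hQ⟩) (S.src' hz)
  rw [rel_app (q := pq A.L (B.ch i) (S.par c)) (S.src' hz)] at h2
  rw [h2, S.val m c z hz, S.pr_eq, S.pt, ← S.bs, rf, fm_nm_eq hz, S.ε, mul_assoc,
    mul_div_assoc ((-1 : ℂ) ^ (w * m))]
  rfl

theorem meas (hG : (se A lam m).Geo) : Measurable ((S.j ⁻¹' (se A lam m).O i).indicator
    fun z => ‖dS _ (rf lam S m) (rf lam S m) z‖ₑ) := by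
  have hj := (S.emb m).continuous
  simpa only [ENNReal.rpow_one] using meas_ind ((hG.oO i).preimage hj) (fun z hz => by
    obtain ⟨c, hc⟩ := (S.F.K m).cover z
    have h1 := ((S.F.K m).e c).continuousAt hc
    have h2 := ((S.F.K m).e c).open_source.eventually_mem hc
    have h3 : ContinuousAt (fun z => rf lam S m c ((S.F.K m).e c z)) z :=
      (continuousAt_const.mul ((hG.rlh hz (pc S c) (S.src' hc)).cont.comp hj.continuousAt)).congr
        (h2.mono fun z' k => (key S h hy hQ k).symm)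
    refine (((It.wt_sm (((S.F.K m).e c).map_source hc)).continuousAt.comp h1).mul
      (h3.mul (Complex.continuous_conj.continuousAt.comp h3))).congr ?_
    filter_upwards [h2] with z' k
    exact (dS_eq k (fun j => (top S h hy hQ).chg c j z' k)
      fun j => (top S h hy hQ).chg c j z' k).symm) 1

theorem nu_eq (hG : (se A lam m).Geo) : (se A lam m).ν i y = ((S.F.K m).μ.withDensity
    ((S.j ⁻¹' (se A lam m).O i).indicator fun z => ‖dS _ (rf lam S m) (rf lam S m) z‖ₑ)).map S.j := by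
  have hp := (S.emb m).continuous.measurable
  have hν := (hG.nu hy hQ).1
  refine uniq (S := gm A.L C.g m ⁻¹' {y}) (V := fun c => ((A.L.K (w + m)).e (S.par c)).source)
    (fun c => OpenPartialHomeomorph.open_source _) (fun x hx => ?_) hν.1 ?_ fun c f hf h0 => ?_
  · obtain ⟨z, rfl⟩ := Tr.ex_j S hx
    exact mem_iUnion.2 (((S.F.K m).cover z).imp fun c => S.src')
  · rw [Measure.map_apply hp (isClosed_singleton.preimage hG.hol.cont).measurableSet.compl,
      show S.j ⁻¹' (gm A.L C.g m ⁻¹' {y})ᶜ = ∅ from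
        eq_empty_of_forall_notMem fun z k => k (S.gm_j z), measure_empty]
  refine (hν.2 _ (pc S c) S.at'.2 f hf h0).trans ?_
  rw [lintegral_map hf hp, show {v | ((pq A.L (B.ch i) (S.par c)).1 y, v) ∈
    (pq A.L (B.ch i) (S.par c)).2.target} = _ from Tr.pq_tgt S c]
  refine Eq.trans ?_ ((lintegral_withDensity_eq_lintegral_mul _ (meas S h hy hQ hG)
    (hf.comp hp)).trans ((S.F.K m).hμ c _ ((meas S h hy hQ hG).mul (hf.comp hp)) fun z hz =>
      mul_eq_zero_of_right _ (h0 _ fun k => hz (by rwa [S.src])))).symm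
  refine setLIntegral_congr_fun ((S.F.K m).e c).open_target.measurableSet fun v hv => ?_
  obtain ⟨z, hz, rfl⟩ := ((S.F.K m).e c).surjOn hv
  have e : (pq A.L (B.ch i) (S.par c)).2.symm ((pq A.L (B.ch i) (S.par c)).1 y, (S.F.K m).e c z) =
      S.j z := (Tr.pq_symm S hv).trans (congrArg _ (((S.F.K m).e c).left_inv hz))
  simp only [e, ((S.F.K m).e c).left_inv hz, Pi.mul_apply, comp_apply, fmm]
  rw [mul_comm _ (f _), mul_assoc]
  congr 1
  by_cases k : S.j z ∈ (se A lam m).O i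
  · rw [indicator_of_mem k, indicator_of_mem (by exact k), Nut.den (top S h hy hQ) hz
      (S.tri.φ m c _ hv), key S h hy hQ hz, enorm_mul, enorm_pow, enorm_neg, enorm_one, one_pow,
      one_mul, Nat.cast_one, div_one, ENNReal.rpow_two]
  · rw [indicator_of_notMem k, indicator_of_notMem (by exact k), zero_mul]

end Br

open Br

/-- **BRM** -/
theorem brm : BRM := fun w d B C _ A lam h i y hy hQ S m hG f hf => by
  have hp := (S.emb m).continuous.measurable
  rw [nu_eq S h hy hQ hG, lintegral_map hf hp]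
  refine (lintegral_withDensity_eq_lintegral_mul _ (meas S h hy hQ hG) (hf.comp hp)).trans
    (lintegral_congr_ae ((ae_O S hy hQ (lam := lam)).mono fun z k => ?_))
  simp only [Pi.mul_apply, comp_apply]
  rw [indicator_of_mem (by exact k), mul_comm]

/-- **BRH** -/
theorem brh : BRH := fun w d B C _ A lam h i y hy hQ S m hG hM O H hO hO' hH => by
  have e : ∀ (q : PC w m _ _) x, IsPC (gm A.L C.g m) q → x ∈ q.2.source → gm A.L C.g m x = y →
      q.2.symm (q.1 y, (q.2 x).2) = x := fun q x hq hx k => by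
    rw [← k, Mg.pc_eq hq hx, q.2.left_inv hx]
  obtain ⟨a, a1, a2⟩ := ((stTr stPc _ w d _ _ A.L _ _ C.g A.geo A.lg.hol _ y S).2 m).1
    (fun q v => (-1) ^ (w * m) * rl 1 (B.ch i) (gm A.L C.g m) H q (q.2.symm (q.1 y, v)))
    ⟨fun q x hq hx k => by
      have k1 := Mg.sl_an hq hx (rl_hol (m := 1) (χ := B.ch i) (g := gm A.L C.g m) (hG.hol.at x)
        ((hO.eventually_mem (hO' k)).mono fun x' r c c' r1 r2 => by
          rw [pow_one]
          exact hH.chg x' r c c' r1 r2) (hH.hol x (hO' k) _ (at_chart x)) hq hx (k ▸ S.at'))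
      rw [(hq.2.fst x hx).2, k] at k1
      exact analyticAt_const.mul k1, fun q q' x hq hq' hx hx' k => by
      rw [e q x hq hx k, e q' x hq' hx' k, rl_chg hq hq' hx hx' (k ▸ S.at'), pow_one,
        mul_left_comm]⟩
  refine ⟨a, a1, fun z k => ?_⟩
  have hz := ix_src (S.F.K m) z
  have hv := ((S.F.K m).e _).map_source hz
  obtain ⟨ζ, hζ, -⟩ := hG.snc (S.j z)
  have k1 := memO (lam := lam) S hy hQ k
  obtain ⟨b, -, b1, b2⟩ := hM i _ _ k1.1.1 (at_chart _) ζ hζ
  have k2 : tz A.L (w + m) (lam i) (chartAt (Cm (w + m)) (S.j z)) (S.j z) ≠ 0 :=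
    (b2.self_of_nhds k1).trans_ne (mul_ne_zero b1 (Finset.prod_ne_zero_iff.2 fun l _ =>
      zpow_ne_zero _ (mt (hζ l).mem.1 (k l))))
  rw [vl, vl, ← a2 _ _ hv, key S h hy hQ hz]
  change _ * rl 1 _ _ _ _ ((pq A.L (B.ch i) (S.par _)).2.symm (B.ch i y, _)) = H _ _ / tz _ _ _ _ _ * _
  rw [Tr.pq_symm S hv, ((S.F.K m).e _).left_inv hz, rl, rl]
  field_simp

end Vale.Agent.P281Z.Rg
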