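import Vale.Agent.P281Z.Rg.Sk
import Vale.Agent.P281Z.Pk.Nu
import Vale.Agent.P281Z.Pk.Upp
import Vale.Agent.P281Z.Pk.UpB

/-!
# P281Z, block REG: local integrability on the base and on the total space
-/

open scoped Manifold ContDiff Topology ENNReal
open Set Filter MeasureTheory
open Vale.Agent.P272.K Vale.Agent.P285.H281.FD
open Vale.Agent.P277Z (Hol at_chart)
open Vale.Agent.P277Z.Slc (LEq Snc)
open Vale.Agent.P281Z.Pk

noncomputable section

namespace Vale.Agent.P281Z.Rg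

namespace Lm

variable {w e : ℕ} {B : Bs w} {E : Et B e 1} {i : B.l.ι} {F : E.X.X → ℝ≥0∞} {y : B.W.X}

theorem tm_eq (c : Chart (w + e) E.X.X) (x : E.X.X) : F x * tm 1 (oq E i) (E.t i) c x =
    (oq E i).indicator (fun y => F y * ‖E.t i c y‖ₑ ^ 2) x := by
  rw [indicator_mul_right, tm]
  simp only [Nat.cast_one, div_one, ENNReal.rpow_two]

theorem ae_fib (i : B.l.ι) (y : B.W.X) : ∀ᵐ x ∂E.ν i y, E.g x = y := by
  show E.ν i y (E.g ⁻¹' {y})ᶜ = 0
  unfold Et.ν fm
  split_ifs with c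
  exacts [c.choose_spec.1, rfl]

theorem int_mul (hF : Measurable F) (a : B.W.X → ℝ≥0∞) (y : B.W.X) :
    ∫⁻ x, F x * a (E.g x) ∂E.ν i y = (∫⁻ x, F x ∂E.ν i y) * a y := by
  rw [← lintegral_mul_const _ hF]
  exact lintegral_congr_ae ((ae_fib i y).mono fun x hx => by simp only [hx])

theorem lx_iff (hE : E.Geo) (hF : Measurable F) {x : E.X.X} :
    Lx E i F x ↔ ((E.μ i).withDensity F).FiniteAtFilter (𝓝 x) := by
  have he := at_chart (n := w + e) x
  have key : ∀ V, IsOpen V → V ⊆ (chartAt (Cm (w + e)) x).source → (E.μ i).withDensity F V =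
      ∫⁻ z in (chartAt (Cm (w + e)) x).target, V.indicator ((oq E i).indicator fun y =>
        F y * ‖E.t i (chartAt (Cm (w + e)) x) y‖ₑ ^ 2) ((chartAt (Cm (w + e)) x).symm z) :=
    fun V hV h => by
      rw [withDensity_apply _ hV.measurableSet, ← lintegral_indicator hV.measurableSet,
        (hE.mu i).1 _ he.1 _ (hF.indicator hV.measurableSet)
          fun y hy => indicator_of_notMem (fun a => hy (h a)) _]
      refine lintegral_congr fun z => ?_
      rw [← indicator_mul_left]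
      exact congrArg (V.indicator · _) (funext (tm_eq _))
  unfold Lx
  generalize chartAt (Cm (w + e)) x = c at he key ⊢
  refine ⟨fun h => ?_, fun ⟨V, hV, h⟩ => ?_⟩
  · obtain ⟨U, hU, h⟩ := h.at he
    obtain ⟨O, h1, h2, h3⟩ := mem_nhds_iff.1 hU
    refine ⟨_, (c.isOpen_inter_preimage h2).mem_nhds ⟨he.2, h3⟩, lt_of_le_of_lt ?_
      ((lintegral_mono_set h1).trans_lt h)⟩
    rw [key _ (c.isOpen_inter_preimage h2) inter_subset_left, ← lintegral_indicator h2.measurableSet]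
    refine le_trans (setLIntegral_mono' c.open_target.measurableSet fun z hz => ?_)
      (setLIntegral_le_lintegral _ _)
    by_cases k : z ∈ O
    · rw [indicator_of_mem k]
      exact indicator_le_self _ _ _
    · rw [indicator_of_notMem fun a => k (c.right_inv hz ▸ a.2)]
      exact zero_le
  · obtain ⟨O, h1, h2, h3⟩ := mem_nhds_iff.1 (inter_mem hV (c.open_source.mem_nhds he.2))
    refine Li.mono ⟨c, he, _, c.open_target.mem_nhds (c.map_source he.2),
      (key O h2 fun y a => (h1 a).2).ge.trans_lt ((measure_mono fun y a => (h1 a).1).trans_lt h)⟩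
      ENNReal.one_ne_top ?_
    filter_upwards [h2.mem_nhds h3] with y hy
    rw [one_mul, indicator_of_mem hy]

theorem li_iff (hE : E.Geo) (hF : Measurable F) (hy : y ∈ B.l.U i) :
    LI (B.ch i) E.Qᶜ (fun z => ∫⁻ x, F x ∂E.ν i z) y ↔
      ∃ W ∈ 𝓝 y, (E.μ i).withDensity F (E.g ⁻¹' W) < ⊤ := by
  have hχ := hE.base.ch i _ hy
  have key : ∀ W, IsOpen W → (E.μ i).withDensity F (E.g ⁻¹' W) =
      ∫⁻ z in (B.ch i).target ∩ (B.ch i).symm ⁻¹' (B.l.U i \ E.Q),
        W.indicator (fun y => ∫⁻ x, F x ∂E.ν i y) ((B.ch i).symm z) := fun W hW => by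
    have m := (hW.preimage hE.hol.cont).measurableSet
    rw [withDensity_apply _ m, ← lintegral_indicator m, (fub _ _ _ _ _ hE i _ (hF.indicator m)).2]
    refine lintegral_congr fun z => Eq.trans (lintegral_congr fun x => ?_)
      ((int_mul hF (W.indicator 1) _).trans ?_)
    · by_cases k : E.g x ∈ W <;> simp [k]
    · by_cases k : (B.ch i).symm z ∈ W <;> simp [k]
  refine ⟨fun ⟨U, hU, h⟩ => ?_, fun ⟨V, hV, h⟩ => ?_⟩
  · obtain ⟨O, h1, h2, h3⟩ := mem_nhds_iff.1 hU
    have a := (B.ch i).isOpen_inter_preimage h2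
    have b := (B.ch i).isOpen_inter_preimage_symm (hE.oU i)
    refine ⟨_, a.mem_nhds ⟨hχ.2, h3⟩, lt_of_le_of_lt ?_ h⟩
    rw [key _ a]
    refine le_trans (setLIntegral_mono' b.measurableSet
      (g := O.indicator fun z => ∫⁻ x, F x ∂E.ν i ((B.ch i).symm z)) fun z hz => ?_) ?_
    · by_cases k : z ∈ O
      · rw [indicator_of_mem k]
        exact indicator_le_self _ _ _
      · rw [indicator_of_notMem fun a => k ((B.ch i).right_inv hz.1 ▸ a.2)]
        exact zero_le
    · rw [lintegral_indicator h2.measurableSet, Measure.restrict_restrict h2.measurableSet]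
      exact lintegral_mono_set fun z hz => ⟨h1 hz.1, hz.2.2.2⟩
  · obtain ⟨O, h1, h2, h3⟩ := mem_nhds_iff.1 (inter_mem hV (lb_near hE.base.lb hy))
    refine ⟨_, ((B.ch i).isOpen_inter_preimage_symm h2).mem_nhds ⟨(B.ch i).map_source hχ.2,
      show (B.ch i).symm _ ∈ O from ((B.ch i).left_inv hχ.2).symm ▸ h3⟩, lt_of_le_of_lt ?_
      ((key O h2).ge.trans_lt ((measure_mono (preimage_mono fun y a => (h1 a).1)).trans_lt h))⟩
    rw [inter_assoc, ← preimage_inter]
    exact le_trans (setLIntegral_mono' ((B.ch i).isOpen_inter_preimage_symm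
      (h2.inter hE.thin.closed.isOpen_compl)).measurableSet fun z hz =>
        (indicator_of_mem hz.2.1 fun y => ∫⁻ x, F x ∂E.ν i y).ge) (lintegral_mono_set fun z hz => ⟨hz.1, (h1 hz.2.1).2, hz.2.2⟩)

theorem exists_meas {τ : B.W.X → ℂ} (h : Hol w τ y) :
    ∃ τ', Measurable τ' ∧ ∀ᶠ z in 𝓝 y, τ' z = τ z := by
  classical
  obtain ⟨V, k1, k2, k3⟩ := eventually_nhds_iff.1 h.near
  exact ⟨V.piecewise τ 0, ContinuousOn.measurable_piecewise (fun z hz =>
    (k1 z hz).cont.continuousWithinAt) continuousOn_const k2.measurableSet,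
    (k2.eventually_mem k3).mono fun z hz => piecewise_eq_of_mem _ _ _ hz⟩

theorem en (a t : ℂ) (j : ℤ) :
    ‖a ^ j * t‖ₑ ^ 2 = ENNReal.ofReal (‖a‖ ^ (2 * j)) * ‖t‖ₑ ^ 2 := by
  rw [enorm_mul, mul_pow, ← ofReal_norm, ← ENNReal.ofReal_pow (norm_nonneg _), norm_zpow,
    ← zpow_natCast, ← zpow_mul, mul_comm j]
  rfl

end Lm

open Lm

theorem lm : LM := fun _ _ _ E hE i y hy F hF => by
  rw [li_iff hE hF hy]
  simp only [lx_iff hE hF]
  refine ⟨fun h => ?_, fun ⟨W, hW, h⟩ x hx =>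
    ⟨_, hE.hol.cont.continuousAt.preimage_mem_nhds (hx ▸ hW), h⟩⟩
  obtain ⟨U, h1, h2, h3⟩ := ((isClosed_singleton (x := y)).preimage
    hE.hol.cont).isCompact.exists_open_superset_measure_lt_top' h
  exact ⟨(E.g '' Uᶜ)ᶜ, (hE.hol.cont.isClosedMap _ h2.isClosed_compl).isOpen_compl.mem_nhds
    fun ⟨x, a, b⟩ => a (h1 b), lt_of_le_of_lt (measure_mono fun x a => by_contra fun b => a ⟨x, b, rfl⟩) h3⟩

theorem end_of (hL : LM) : END := by
  classical
  intro w e B E hE b hb i y hy τ j hτ H ε hε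
  obtain ⟨τ', m1, m2⟩ := exists_meas hτ
  have hχ := hE.base.ch i _ hy
  have m3 : Measurable (E.wt ε) := (hE.cont.measurable.pow_const ε).ennreal_ofReal
  refine Lu.of_li (Lu.li_of ((hL w e B E hE i y hy (fun x => E.wt ε x *
    ENNReal.ofReal (‖τ' (E.g x)‖ ^ (2 * j))) (m3.mul (((m1.comp hE.hol.cont.measurable).norm.pow_const
      _).ennreal_ofReal))).1 fun x hx => ?_) hχ) hχ hE.thin.closed.isOpen_compl
    ENNReal.one_ne_top (m2.mono fun z a k => ?_)
  swap
  · rw [one_mul, indicator_of_mem k, int_mul m3 fun z => ENNReal.ofReal (‖τ' z‖ ^ (2 * j)), pow_one, a]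
    rfl
  obtain ⟨c, h1, h2⟩ := H x hx
  obtain ⟨ζ, hζ, -⟩ := hE.snc x
  obtain ⟨β, b1, -, b2⟩ := h1 ζ hζ
  obtain ⟨C, c1, c2⟩ := hb x ζ hζ
  obtain ⟨K, k1, k2⟩ := bdd_near b1.cont.norm
  refine (li_wt hE.snc hζ (γ := fun l => b l * ε + c l * 2) fun l hl => ?_).mono
    (C := ENNReal.ofReal (C ^ ε * K ^ (2 : ℝ))) ENNReal.ofReal_ne_top ?_
  · rcases h2 l hl with ⟨a1, a2⟩ | a
    · have := mul_pos (Nat.cast_pos (α := ℝ).2 a2) hε
      rw [a1]
      push_cast
      linarith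
    · have : (0 : ℝ) ≤ b l * ε + c l * 2 := by positivity
      linarith
  filter_upwards [b2, c2, k2, off_iff hζ, hE.hol.cont.continuousAt.eventually (hx ▸ m2)]
    with u s1 s2 s3 s4 s5
  by_cases k : u ∈ oq E i
  swap
  · rw [indicator_of_notMem k]
    exact zero_le
  have s6 : 0 ≤ ∏ l, ‖ζ l u‖ ^ b l := by positivity
  have s7 := (mul_nonneg_iff_of_pos_left c1).1 (s6.trans s2.2)
  have s8 := Real.rpow_le_rpow s7 s2.1 hε.le
  rw [indicator_of_mem k, mul_assoc, s5, ← en, show τ (E.g u) ^ j * _ = _ from s1 k, Et.wt,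
    ← ofReal_norm, ← ENNReal.ofReal_pow (norm_nonneg _), ← ENNReal.ofReal_mul (by positivity),
    ← ENNReal.ofReal_mul (by positivity), ← Real.rpow_two, Up.mono_norm, wt_add (s4.1 k.1.2),
    mul_mul_mul_comm, ← Lu.wt_rpow ζ (fun l => b l), ← Real.mul_rpow c1.le (wt_nonneg _ _ _)]
  simp only [Real.rpow_natCast]
  exact ENNReal.ofReal_le_ofReal (mul_le_mul s8 (mul_le_mul_of_nonneg_right
    (Real.rpow_le_rpow (norm_nonneg _) s3 zero_le_two) (wt_nonneg _ _ _)) (by positivity)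
    ((Real.rpow_nonneg s7 _).trans s8))

theorem beg_of (hL : LM) : BEG := by
  intro w e B E hE i y hy τ j h K hτ hK hν H x hx
  obtain ⟨τ', m1, m2⟩ := exists_meas hτ
  have hχ := hE.base.ch i _ hy
  refine Li.mono ((hL w e B E hE i y hy (fun x => 1 * ENNReal.ofReal (‖τ' (E.g x)‖ ^ (2 * j)))
    (measurable_const.mul (((m1.comp hE.hol.cont.measurable).norm.pow_const _).ennreal_ofReal))).2
    (Lu.of_li (Lu.li_of H hχ) hχ hE.thin.closed.isOpen_compl hK ?_) x hx) ENNReal.one_ne_top ?_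
  · filter_upwards [m2, lb_near hE.base.lb hy] with z a b k
    rw [indicator_of_mem k, int_mul measurable_const fun z => ENNReal.ofReal (‖τ' z‖ ^ (2 * j)), a,
      lintegral_one, pow_one, ENNReal.ofReal_mul' (by positivity), ← mul_assoc]
    exact mul_le_mul_left (hν z b k) _
  · filter_upwards [hE.hol.cont.continuousAt.eventually (hx ▸ m2)] with u a
    rw [one_mul]
    refine indicator_le_indicator ?_
    rw [one_mul, a, ← en]
    rfl

end Vale.Agent.P281Z.Rg
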