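import Vale.Agent.P281Z.Rg.Sk
import Vale.Agent.P281Z.Lv.Muf
import Vale.Agent.P281Z.Lv.Hyp
import Vale.Agent.P281Z.Lv.Rel
import Vale.Agent.P281Z.Lv.Tr
import Vale.Agent.P281Z.Pk.EigT

/-!
# P281Z, block REG, row ORF
-/

open scoped Manifold ContDiff Topology ENNReal ComplexConjugate ComplexOrder
open Set Filter MeasureTheory
open Vale.Agent.P272.K Vale.Agent.P284.H608.K
open Vale.Agent.P277Z (Hol hol_comp)
open Vale.Agent.P281Z.Ha Vale.Agent.P281Z.Lg Vale.Agent.P281Z.Pk Vale.Agent.P281Z.Lv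

noncomputable section

namespace Vale.Agent.P281Z.Rg

namespace Of

theorem wI_pos {κ : Type} {r : κ → ℝ} (h : ∀ l, 0 < r l) (I : Finset κ) : 0 < wI r I :=
  Finset.prod_pos fun l _ => div_pos Real.two_pi_pos (h l)

section lad

variable {κ V : Type} [Fintype κ] [LinearOrder κ] {n m : ℕ} {L : Lad κ V n} {b : L.B → V → ℂ}

theorem psd (h : Tri L) (m : ℕ) : Psd (L.K m) := fun c z hz => by
  rw [C2.cHess_congr (v := fun _ => 0) (mem_of_superset
    (((L.K m).e c).open_target.mem_nhds hz) (h.φ m c)), C2.cHess_const]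
  exact .zero

theorem lc (L : Lad κ V n) (u : Finset κ → ℝ) (m : ℕ) :
    IsLocallyConstant fun z : (L.Y m).X => u (L.lab z) :=
  (IsLocallyConstant.iff_eventually_eq _).2 fun z =>
    ((stRs _ _ _ L).lab m z).mono fun _ h => congrArg u h

theorem down (hG : Gl L) (h : L.Sec n b) (hm : m ≤ n) : L.Sec m b :=
  Nat.decreasingInduction (motive := fun m _ => L.Sec m b) (fun k hk => hG.down k b hk) h hm

end lad

variable {w d : ℕ} {B : Bs w} {C : Et B d 1} [LinearOrder C.κ] {A : Dt C}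
  {lam : B.l.ι → A.L.B → C.X.X → ℂ} (hl : A.Lam lam) {i : B.l.ι} {y : B.W.X} (hy : y ∈ B.l.U i)
  (hQ : y ∉ C.Q) (S : Slc A.L C.g (B.ch i) y) {e k : ℕ}

include hl hy hQ

theorem sec (hN : StNum) (m : ℕ) : S.F.Sec m (S.rb (lam i)) :=
  (hN _ w d _ _ A.L _ A.fr C.g A.geo A.lg.hol).2 _ y S _ _ (hl.hol i)
    (fun _ hx => mem_preimage.2 (mem_singleton_iff.1 hx ▸ ⟨hy, hQ⟩)) m

theorem ne {m : ℕ} {c : (S.F.K m).I} {z : (S.F.Y m).X} (hz : z ∈ ((S.F.K m).e c).source)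
    (h : S.F.pt z ∉ oth C.G A.a A.b) : S.rb (lam i) (S.F.bs c) (S.F.pt z) ≠ 0 :=
  hl.ne i _ _ (by rw [← S.pt, show C.g _ = y from S.gm_j z]; exact ⟨hy, hQ⟩)
    (S.U _ ▸ S.F.mem m c z hz) h

theorem top (hA : StAsy) (hN : StNum) (hU : StNut) (D : A.Dep e k) : H0 _ (rf lam S e) ∧
    0 < (pS _ (mu _ (fun z => wI A.r (S.F.lab z)) (rf lam S e)) (rf lam S e)).re ∧
    (∀ b, S.F.Sec d b → ∀ ε : ℝ, 0 < ε → Integrable (dρ S.F C.ρ ε b b) (S.F.K d).μ) ∧
    Tendsto (fun ε : ℝ => ((ε ^ k : ℝ) : ℂ) * (C.J i ε y).toReal) (𝓝[>] 0)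
      (𝓝 (pS _ (mu _ (fun z => wI A.r (S.F.lab z)) (rf lam S e)) (rf lam S e))) := by
  have W := stHyp w d B C A _ y hQ S
  have s := sec hl hy hQ S hN
  have em : ∀ m < e, IsEmpty (S.F.Y m).X := fun m h =>
    ⟨fun z => hQ (S.gm_j z ▸ D.emp m h (S.j z))⟩
  have p : ∀ c : (S.F.K e).I, ∀ v ∈ ((S.F.K e).e c).target, S.F.pr c v ≠ 0 := fun c v hv => by
    have k := ((S.F.K e).e c).map_target hv
    have := D.nb (S.j _) (by rwa [S.gm_j]) _ (S.src' k)
    rwa [S.val e c _ k, S.pr_eq, ((S.F.K e).e c).right_inv hv] at this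
  have h0 : H0 _ (rf lam S e) := ((stMuf _ _ _ S.F e).2 p _).1 (s e)
  refine ⟨h0, Mu.pos (stInt stApi _ _ _) (lc _ _ e) (fun z => wI_pos W.pos _) h0 fun h => ?_,
    fun b hb => (hA _ _ _ S.F e k _ _ _ b b D.add em W hb hb).1,
    (hA _ _ _ S.F e k _ _ _ _ _ D.add em W (s d) (s d)).2.congr'
      (eventually_mem_nhdsWithin.mono fun ε hε => by
        simp only [((hU w d B C A lam hl i y hy hQ S _ (s d)).2 ε hε).2])⟩
  obtain ⟨_, f⟩ := D.fam e le_rfl (D.add ▸ Nat.le_add_right e k)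
  obtain ⟨x, hx⟩ := f.onto y hQ
  obtain ⟨z₀, -⟩ := Tr.ex_j S hx
  have := It.open_pos (S.F.K e)
  have : NeZero (S.F.K e).μ := ⟨fun k => isOpen_univ.measure_ne_zero (S.F.K e).μ ⟨z₀, trivial⟩
    (by rw [k]; rfl)⟩
  obtain ⟨z, hz⟩ := (W.ae e).exists
  obtain ⟨c, hc⟩ := (S.F.K e).cover z
  refine div_ne_zero (mul_ne_zero (S.F.eps_ne c) (ne hl hy hQ S hc hz))
    (p c _ (((S.F.K e).e c).map_source hc)) ((fm_nm_eq hc).symm.trans ?_)
  exact congrFun (congrFun h c) _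

theorem fh (hN : StNum) {b : S.F.B → C.X.X → ℂ} (hb : S.F.Sec d b) {x : C.X.X} (hx : x ∈ off C.G)
    (hxy : C.g x = y) : FH C.g (A.quo (fun β => b (S.bb.symm β)) (lam i)) x := by
  have E := (stTr stPc _ w d _ _ A.L _ A.fr C.g A.geo A.lg.hol _ y S).1
  have s := sec hl hy hQ S hN d
  obtain ⟨z, rfl⟩ := E.ex hxy
  obtain ⟨c, hc⟩ := (S.F.K d).cover z
  have ht := ((S.F.K d).e c).map_source hc
  refine (fh_iff E A.lg.hol ((A.lg.reg y hQ).sbm A.lg.hol A.lg.snc hxy)).2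
    ((hol_comp (at_e S.F hc) ((hb.hol c _ ht).fun_div (s.hol c _ ht) (by
      rw [S.F.nm_src _ hc]
      exact ne hl hy hQ S hc fun ⟨l, _, h⟩ => hx l h))).congr ?_)
  filter_upwards [((S.F.K d).e c).open_source.mem_nhds hc] with z hz
  have h1 := S.F.mem d c z hz
  have h2 : ∃ β, S.F.pt z ∈ A.L.U β := ⟨_, S.U _ ▸ h1⟩
  have h3 : S.F.pt z ∈ S.F.U (S.bb.symm h2.choose) := by
    rw [S.U, S.bb.apply_symm_apply]
    exact h2.choose_spec
  have h4 := s.chg _ _ _ ⟨z, rfl⟩ h3 h1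
  rw [Slc.rb, S.bb.apply_symm_apply] at h4
  rw [Dt.quo, dif_pos h2, S.F.nm_src _ hz, S.F.nm_src _ hz, hb.chg _ _ _ ⟨z, rfl⟩ h3 h1, h4,
    mul_div_mul_left _ _ (S.F.G_ne h3 h1)]

end Of

open Of

theorem orf_of (hA : StAsy) (hA' : StAsyG) (hN : StNum) (hU : StNut) (hW : StB2w) (h1 : StB1)
    (hG : StGl) : ORF := by
  intro w d B C _ A lam hl i y hy hQ S e k D m em md a ha
  obtain ⟨-, t1, t2, t3⟩ := top hl hy hQ S hA hN hU D
  have W := stHyp w d B C A _ y hQ S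
  have s := sec hl hy hQ S hN
  have G := hG _ _ _ S.F
  have I := stInt stApi _ _ (S.F.K m)
  have u0 := fun z : (S.F.Y m).X => wI_pos W.pos (S.F.lab z)
  have ul := lc S.F (fun I => (wI A.r I)⁻¹) m
  obtain ⟨g, b, g1, b1, b2⟩ := hW _ _ _ S.F (psd S.tri) m md _ ul (fun z => inv_pos.2 (u0 z)) _
    (Mu.h0 ul ha)
  have rb : S.rb (fun β => b (S.bb.symm β)) = b := funext fun β => congrArg b (S.bb.symm_apply_apply β)
  have U := hU w d B C A lam hl i y hy hQ S (fun β => b (S.bb.symm β)) (rb.symm ▸ b1)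
  rw [rb] at U
  obtain ⟨c, hc⟩ := A.lg.mean i y hy hQ _ (fun x h h' => fh hl hy hQ S hN b1 h h') (U.1 (t2 b b1))
  have l1 := hA' _ _ _ S.F m (d - m) _ _ _ b _ (by omega) (by
    rintro m rfl β x hx hβ
    simpa using Lad.agr_sub G md (down G b1 md).chg b2 0 β x hx hβ) W b1 (s d)
  have e1 : ∀ ε : ℝ, ε ∈ Ioi 0 → ∫ z, dρ S.F C.ρ ε b (S.rb (lam i)) z ∂(S.F.K d).μ =
      c * (C.J i ε y).toReal := fun ε hε => (U.2 ε hε).1.symm.trans (hc ε hε)
  have c0 : c = 0 := by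
    have p0 : Tendsto (fun ε : ℝ => ((ε ^ (m - e) : ℝ) : ℂ)) (𝓝[>] 0) (𝓝 0) := by
      simpa [show m - e ≠ 0 by omega, Function.comp_def] using ((Complex.continuous_ofReal.comp
        (continuous_pow (m - e))).tendsto 0).mono_left nhdsWithin_le_nhds
    have := tendsto_nhds_unique (t3.const_mul c) ((p0.mul l1).congr'
      (eventually_mem_nhdsWithin.mono fun ε hε => by
        simp only [e1 ε hε, show k = m - e + (d - m) by have := D.add; omega, pow_add]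
        push_cast
        ring))
    rw [zero_mul] at this
    exact (mul_eq_zero.1 this).resolve_right fun h => by simp [h] at t1
  have l2 := tendsto_nhds_unique l1 ((tendsto_const_nhds (x := 0)).congr'
    (eventually_mem_nhdsWithin.mono fun ε hε => by simp only [e1 ε hε, c0, zero_mul, mul_zero]))
  have g2 := Lad.rs_h0 (stRs _ _ _ S.F) g1
  rw [I.conjS, map_eq_zero, pS, integral_congr_ae (g := fun z => dS _ (rf lam S m) a z -
    dS _ (rf lam S m) (S.F.rs g) z) ((G.ae m).mono fun z hz => ?_), integral_sub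
      (f := dS _ (rf lam S m) a) (g := dS _ (rf lam S m) (S.F.rs g)) (Lad.int_sec G (s m) a ha) (Lad.int_sec G (s m) _ g2)] at l2
  · rw [I.conjS, map_eq_zero]
    exact (sub_eq_zero.1 l2).trans ((h1 _ _ _ S.F m _).1 (s _) (s m) g g1.vec
      (Rn.hl_sm g1.hol) g1.dv)
  have h := ix_src (S.F.K m) z
  have h2 := hz _ h
  have h3 := Complex.ofReal_ne_zero.2 (u0 z).ne'
  simp only [dS, ← mul_sub, ← map_sub, rf]
  congr 3
  rw [mu, fm_nm_eq h, ← b2 _ z h trivial]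
  simp only [Lad.nu, mu, Pi.sub_apply, ((S.F.K m).e _).left_inv h, ← mul_assoc, S.F.eps]
  push_cast
  field_simp

end Vale.Agent.P281Z.Rg
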