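import Vale.Agent.P281Z.Rg.Sk
import Vale.Agent.P281Z.Lg.Gl
import Vale.Agent.P281Z.Lg.Cp

/-!
# P281Z, block REG: the rows ORT and TOP
-/

open scoped Manifold ContDiff Topology ENNReal ComplexConjugate ComplexOrder
open Set Filter MeasureTheory
open Vale.Agent.P272.K Vale.Agent.P285.H281.FD Vale.Agent.P284.H608.K
open Vale.Agent.P281Z.Ha Vale.Agent.P281Z.Lg Vale.Agent.P281Z.Pk Vale.Agent.P281Z.Lv

noncomputable section

namespace Vale.Agent.P281Z.Rg

namespace Ot

theorem dS_meas {κ V : Type} [Fintype κ] [LinearOrder κ] {n m : ℕ} (L : Lad κ V n)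
    {f : Sc (L.K m)} (hf : L.Num f) (sf : Sm _ f) :
    AEMeasurable (dS _ (L.fm f) (L.fm f)) (L.K m).μ := by
  have tf := L.top_fm hf
  have h : ∀ y ∈ {y | L.pr ((L.K m).ix y) ((L.K m).e ((L.K m).ix y) y) ≠ 0},
      {y | L.pr ((L.K m).ix y) ((L.K m).e ((L.K m).ix y) y) ≠ 0} ∈ 𝓝 y ∧
        ContinuousAt (dS _ (L.fm f) (L.fm f)) y := fun y hy => by
    have h1 := ix_src (L.K m) y
    have h0 : L.pr _ _ ≠ 0 := hy
    generalize (L.K m).ix y = c at h0 h1
    have h2 := ((L.K m).e c).map_source h1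
    have h3 := ((L.K m).e c).continuousAt h1
    have h4 := (L.pr_an c _).continuousAt.comp h3
    have h5 := ((continuousAt_const (y := L.ε c)).mul ((sf c _ h2).continuousAt.comp h3)).div h4 h0
    have h6 := ((L.K m).e c).open_source.mem_nhds h1
    refine ⟨?_, (((It.wt_sm h2).continuousAt.comp h3).mul (h5.mul h5.star)).congr ?_⟩
    · filter_upwards [h6, h4.eventually_ne h0] with z a b using mt (L.pr_zero a (ix_src _ z)).2 b
    · filter_upwards [h6] with z a
      rw [(api _).dS_eq _ _ c z a (fun j => tf.chg c j z a) fun j => tf.chg c j z a, Lad.fm,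
        if_pos (((L.K m).e c).map_source a)]
      rfl
  rw [← Measure.restrict_eq_self_of_ae_mem (L.ae_ne.mono fun y k => k _ (ix_src _ y))]
  exact ContinuousOn.aemeasurable (fun y hy => (h y hy).2.continuousWithinAt)
    (isOpen_iff_mem_nhds.2 fun y hy => (h y hy).1).measurableSet

variable {w d : ℕ} {B : Bs w} {C : Et B d 1} [LinearOrder C.κ] {A : Dt C} {i : B.l.ι} {y : B.W.X}

theorem slc (hF : StFib) (hP : StPol) (A : Dt C) (hi : y ∈ B.l.U i) (hy : y ∉ C.Q) :
    Nonempty (Slc A.L C.g (B.ch i) y) :=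
  hF _ _ _ _ _ _ _ _ _ A.geo A.lg.hol y _ (A.lg.base.ch i y hi)
    ((hP _ _ _ _ C.g _ C.G A.a A.b A.lg.snc).2 y (A.lg.reg y hy))

/-- almost all points of a stratum of the fibre are off the traces -/
theorem ae_off (hH : StHyp) (hy : y ∉ C.Q) (S : Slc A.L C.g (B.ch i) y) (m : ℕ) :
    ∀ᵐ z ∂(S.F.K m).μ, S.j z ∈ off (tr A m) := by
  filter_upwards [(hH _ _ _ _ A _ y hy S).ae m, S.F.ae_ne] with z h1 h2 l ⟨k1, k2⟩
  have hz := ix_src (S.F.K m) z
  generalize (S.F.K m).ix z = c at hz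
  have h3 := ((A.geo.co _ (S.par c) _ (S.src m c ▸ hz :) l).2 k1).1
    (by rwa [pol, if_pos (of_not_not fun k => h1 ⟨l, k, S.pt m z ▸ k2⟩)])
  refine h2 c hz (Finset.prod_eq_zero (Finset.mem_univ l) ?_)
  rw [S.co, S.val m c z hz] at h3
  cases k : S.F.co c l with
  | none => rwa [k] at h3
  | some j =>
    rw [k] at h3
    exact (Fin.append_right _ _ j).symm.trans h3

end Ot

open Ot

/-- **ORT** -/
theorem ort_of (h1 : ORF) (h2 : BRM) (h3 : BRH) (hF : StFib) (hP : StPol) (hH : StHyp)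
    (hN : StNum) : ORT := by
  intro w d B C _ A lam hl e k hD m hm hm' hG hM i y hi hy O H hO hs hH'
  obtain ⟨S⟩ := slc hF hP A hi hy
  obtain ⟨a, ha, h4⟩ := h3 w d B C A lam hl i y hi hy S m hG hM O H hO hs hH'
  have hb := (hN _ _ _ _ _ _ _ _ _ A.geo A.lg.hol).2 _ y S _ _ (hl.hol i)
    (fun x (hx : C.g x = y) => by rw [mem_preimage, hx]; exact ⟨hi, hy⟩) m
  have nb := S.F.num_nm hb.chg
  have sb : Sm _ (S.F.nm m (S.rb (lam i))) := fun c z hz => an_sm (hb.hol c z hz)
  have sa : Sm _ a := fun c z hz => an_sm (ha.hol c z hz)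
  have me : AEMeasurable (fun z => ‖dS _ (rf lam S m) (rf lam S m) z‖ₑ) (S.F.K m).μ :=
    (dS_meas S.F nb sb).enorm
  have lt : ∀ᵐ z ∂(S.F.K m).μ, ‖dS _ (rf lam S m) (rf lam S m) z‖ₑ < ⊤ :=
    .of_forall fun _ => enorm_lt_top
  have em : MeasurableEmbedding (S.j (m := m)) := (S.emb m).measurableEmbedding
    (isCompact_range (S.emb m).continuous).measurableSet
  have hν : (se A lam m).ν i y = ((S.F.K m).μ.withDensity
      fun z => ‖dS _ (rf lam S m) (rf lam S m) z‖ₑ).map S.j :=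
    Measure.ext_of_lintegral _ fun f hf => by
      rw [h2 w d B C A lam hl i y hi hy S m hG f hf, em.lintegral_map]
      exact (lintegral_congr fun z => mul_comm _ _).trans
        (lintegral_withDensity_eq_lintegral_mul₀ me (hf.comp em.measurable).aemeasurable).symm
  have h5 : ∀ᵐ z ∂(S.F.K m).μ, (‖dS _ (rf lam S m) (rf lam S m) z‖ₑ.toReal •
      qt (se A lam m) i H (S.j z) = dS _ a (rf lam S m) z) ∧
      ‖dS _ (rf lam S m) (rf lam S m) z‖ₑ.toReal • ‖qt (se A lam m) i H (S.j z)‖ ^ 2 =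
        ‖dS _ a a z‖ := (ae_off (C := C) hH hy S m).mono fun z hz => by
    have k : a _ _ = _ * rf lam S m _ _ := h4 z hz
    refine ⟨?_, ?_⟩
    · rw [toReal_enorm, Complex.real_smul, Complex.norm_of_nonneg' (It.dS_nn _ z), dS, dS, k]
      ring
    · simp only [toReal_enorm, dS, k, norm_mul, Complex.norm_conj, smul_eq_mul]
      ring
  have h6 : Integrable (dS _ a (rf lam S m)) (S.F.K m).μ :=
    ((Complex.conjCLE : ℂ →L[ℝ] ℂ).integrable_comp
      (S.F.int_fm stApi (stInt stApi) stCp nb sb ha.top sa)).congr (.of_forall fun z => by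
        simp [dS, It.wt_conj (It.ix_tg z), rf, mul_comm])
  rw [hν, em.integrable_map_iff, em.integrable_map_iff, em.integral_map,
    integrable_withDensity_iff_integrable_smul₀' me lt,
    integrable_withDensity_iff_integrable_smul₀' me lt,
    integral_withDensity_eq_integral_toReal_smul₀ me lt]
  exact ⟨h6.congr (h5.mono fun _ k => k.1.symm), ((stInt stApi _ _ _).intS a a ha.top ha.top sa
    sa).norm.congr (h5.mono fun _ k => k.2.symm), (integral_congr_ae (h5.mono fun _ k => k.1)).trans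
      (h1 w d B C A lam hl i y hi hy S e k hD m hm hm' a ha)⟩

/-- **TOP** -/
theorem top_of (h1 : TPF) (h2 : BRM) (hF : StFib) (hP : StPol) : TOP := by
  intro w d B C _ A lam hl e k hD hG k₀ h hN
  refine ⟨.ofReal (∏ l, A.r l), ENNReal.ofReal_ne_top, fun i y hi hy => ?_⟩
  obtain ⟨S⟩ := slc hF hP A hi hy
  rw [← lintegral_one, h2 w d B C A lam hl i y hi hy S e hG _ measurable_const]
  simpa only [one_mul] using
    h1 w d B C A lam hl i y hi hy S e k hD k₀ _ (hN i y hi hy).1 (hN i y hi hy).2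

end Vale.Agent.P281Z.Rg
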