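import Vale.Agent.P281Z.Rg.Defs
import Vale.Agent.P281Z.Gr.Api
import Vale.Agent.P281Z.Ha.RngA
import Vale.Agent.P281Z.Sc.L2

/-!
# P281Z, block REG: the Cousin problem
-/

open scoped Manifold ContDiff Topology ENNReal
open Set Filter Metric MeasureTheory
open Vale.Agent.P272.K Vale.Agent.P285.H281.FD
open Vale.Agent.P277Z (Hol at_chart trans_an hol_const hol_comp)
open Vale.Agent.P277Z.Slc (isLB_can)
open Vale.Agent.P281Z.Ha.Rn (lint2 tend0 sq0 tend2)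

set_option linter.unusedSectionVars false

noncomputable section

namespace Vale.Agent.P281Z.Rg

namespace Tf

variable {n : ℕ} {X : Type} [TopologicalSpace X] [ChartedSpace (Cm n) X]
  [IsManifold 𝓘(ℂ, Cm n) ω X] {w w' w'' : ℕ → X → ℂ} {x : X} {e e' : Chart n X} {O O' : Set X}
  {s s' : Chart n X → X → ℂ}

/-- `w k` tends to zero in `L²` near `x` -/
def Z2 (e : Chart n X) (w : ℕ → X → ℂ) (x : X) : Prop :=
  ∃ U ∈ 𝓝 (e x), Tendsto (fun k => ∫⁻ z in U, ‖w k (e.symm z)‖ₑ ^ 2) atTop (𝓝 0)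

theorem Z2.chg (h : Z2 e w x) (he : At e x) (he' : At e' x) : Z2 e' w x := by
  obtain ⟨V, hV, h⟩ := h
  have hΨ : AnalyticAt ℂ (e.symm.trans e') (e x) := trans_an (e := e') (e' := e) he' he
  have h0 : e x ∈ (e.symm.trans e').source := by simp [e.map_source he.2, e.left_inv he.2, he'.2]
  set Φ := e.symm.trans e' with hΦ
  have hdet : ContinuousAt (fun w => |(fderiv ℝ Φ w).det|) (e x) :=
    (ContinuousLinearMap.continuous_det.continuousAt.comp
      (((hΨ.contDiffAt (n := 1)).restrict_scalars ℝ).continuousAt_fderiv one_ne_zero)).abs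
  obtain ⟨ρ, hρ, hb⟩ := Metric.eventually_nhds_iff_ball.1 ((hdet.eventually
    (gt_mem_nhds (lt_add_one _))).and (hΨ.eventually_analyticAt.and
      ((Φ.open_source.eventually_mem h0).and (show ∀ᶠ w in 𝓝 (e x), w ∈ V from hV))))
  refine ⟨Φ '' ball (e x) ρ, ?_, sq0 (tend0 (C := ENNReal.ofReal (|(fderiv ℝ Φ (e x)).det| + 1))
    ENNReal.ofReal_ne_top h) fun k => ?_⟩
  · simpa [hΦ, e.left_inv he.2] using Φ.image_mem_nhds h0 (ball_mem_nhds _ hρ)
  rw [lintegral_image_eq_lintegral_abs_det_fderiv_mul volume measurableSet_ball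
    (f' := fderiv ℝ Φ) (fun w hw =>
      ((hb w hw).2.1.differentiableAt.restrictScalars ℝ).hasFDerivAt.hasFDerivWithinAt)
    (Φ.injOn.mono fun w hw => (hb w hw).2.2.1)]
  refine le_trans ?_ (mul_le_mul_right (lintegral_mono_set fun w hw => (hb w hw).2.2.2) _)
  rw [← lintegral_const_mul' _ _ ENNReal.ofReal_ne_top]
  refine setLIntegral_mono' measurableSet_ball fun w hw => ?_
  rw [show e'.symm (Φ w) = e.symm w from e'.left_inv (hb w hw).2.2.1.2]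
  exact mul_le_mul_left (ENNReal.ofReal_le_ofReal (hb w hw).1.le) _

theorem Z2.mul (h : Z2 e w x) (he : At e x) {g : X → ℂ} (hg : ContinuousAt g x)
    (k : ∀ᶠ y in 𝓝 x, ∀ j, w' j y = g y * w j y) : Z2 e w' x := by
  obtain ⟨V, hV, h⟩ := h
  obtain ⟨U, h1, h2, h3⟩ := _root_.eventually_nhds_iff.1 ((at_ev he (k.and (hg.enorm.eventually
    (ge_mem_nhds (ENNReal.lt_add_right enorm_ne_top one_ne_zero))))).and
      (show ∀ᶠ z in 𝓝 (e x), z ∈ V from hV))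
  have hC : (‖g x‖ₑ + 1) ^ 2 ≠ ⊤ := by simp
  refine ⟨U, h2.mem_nhds h3, sq0 (tend0 hC h) fun j => ?_⟩
  rw [← lintegral_const_mul' _ _ hC]
  refine le_trans (setLIntegral_mono' h2.measurableSet fun z hz => ?_)
    (lintegral_mono_set fun z hz => (h1 z hz).2)
  rw [(h1 z hz).1.1, enorm_mul, mul_pow]
  exact mul_le_mul_left (pow_le_pow_left' (h1 z hz).1.2 2) _

theorem Z2.sub (h : Z2 e w x) (h' : Z2 e w' x) (he : At e x)
    (hc : ∀ᶠ y in 𝓝 x, ∀ j, ContinuousAt (w j) y) (k : ∀ j y, w'' j y = w j y - w' j y) :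
    Z2 e w'' x := by
  obtain ⟨V, hV, h⟩ := h
  obtain ⟨V', hV', h'⟩ := h'
  obtain ⟨U, h1, h2, h3⟩ := _root_.eventually_nhds_iff.1 ((at_ev he hc).and
    ((e.open_target.eventually_mem (e.map_source he.2)).and
      (show ∀ᶠ z in 𝓝 (e x), z ∈ V ∩ V' from inter_mem hV hV')))
  exact ⟨U, h2.mem_nhds h3, tend2
    (sq0 h fun j => lintegral_mono_set fun z hz => (h1 z hz).2.2.1)
    (sq0 h' fun j => lintegral_mono_set fun z hz => (h1 z hz).2.2.2) fun j => lint2 volume h2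
      (fun z hz => (((h1 z hz).1 j).comp (e.continuousAt_symm (h1 z hz).2.1)).continuousWithinAt)
      fun z _ => by rw [k]; exact norm_sub_le _ _⟩

theorem Z2.unif (h : Z2 e w x) (he : At e x) (hw : ∀ᶠ y in 𝓝 x, ∀ j, Hol n (w j) y) {ε : ℝ}
    (hε : 0 < ε) : ∃ t ∈ 𝓝 x, ∀ᶠ k in atTop, ∀ y ∈ t, ‖w k y‖ < ε := by
  obtain ⟨V, hV, h⟩ := h
  obtain ⟨R, hR, hb⟩ := Metric.eventually_nhds_iff_ball.1 ((at_ev he hw).and
    ((e.open_target.eventually_mem (e.map_source he.2)).and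
      (show ∀ᶠ z in 𝓝 (e x), z ∈ V from hV)))
  have hr := half_pos hR
  have hv := (measure_ball_pos volume (0 : Cm n) hr).ne'
  refine ⟨e.source ∩ e ⁻¹' ball (e x) (R / 2), (e.isOpen_inter_preimage isOpen_ball).mem_nhds
    ⟨he.2, mem_ball_self hr⟩, (h.eventually (gt_mem_nhds (ENNReal.mul_pos (a := ‖ε‖ₑ ^ 2)
      (by simp [hε.ne']) hv))).mono fun k hk y hy => ?_⟩
  have h1 : ball (e y) (R / 2) ⊆ ball (e x) R :=
    ball_subset_ball' (by linarith [mem_ball.1 hy.2])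
  have h2 := Sc.mean (f := fun z => w k (e.symm z)) (q := e y) (P := ball (e y) (R / 2))
    isOpen_ball (fun z hz t ht => by
      rw [mem_ball_iff_norm, add_sub_cancel_left, norm_smul]
      exact (mul_le_of_le_one_left (norm_nonneg _) ht).trans_lt (mem_ball_iff_norm.1 hz))
    (fun z hz => by
      have := (hb z (h1 hz)).1 k e ⟨he.1, e.map_target (hb z (h1 hz)).2.1⟩
      rwa [e.right_inv (hb z (h1 hz)).2.1] at this) two_pos
  simp only [ENNReal.rpow_two, e.left_inv hy.1] at h2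
  rw [Measure.addHaar_ball_center] at h2
  have h3 := (h2.trans (lintegral_mono_set fun z hz => (hb z (h1 hz)).2.2)).trans_lt hk
  have h4 := lt_of_pow_lt_pow_left' 2 (lt_of_mul_lt_mul_right' h3)
  rwa [Real.enorm_eq_ofReal hε.le, ← ofReal_norm, ENNReal.ofReal_lt_ofReal_iff hε] at h4

theorem jac_hol (he : At e x) (he' : At e' x) : Hol n (fun y => (jacM e e' y).det) x :=
  fun c hc => (isLB_can.holo e e' c x hc he he').analyticAt

theorem mono (h : HoT n O s) (k : O' ⊆ O) : HoT n O' s :=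
  ⟨fun x a => h.hol x (k a), fun x a => h.chg x (k a)⟩

theorem pt (h : HoT n O s) (k : x ∈ O) : HoT n {x} s := mono h (singleton_subset_iff.2 k)

theorem of_pt (h : ∀ x ∈ O, HoT n {x} s) : HoT n O s :=
  ⟨fun x a => (h x a).hol x rfl, fun x a => (h x a).chg x rfl⟩

theorem cng (h : HoT n {x} s) (k : ∀ᶠ y in 𝓝 x, ∀ e, At e y → s e y = s' e y) : HoT n {x} s' := by
  refine ⟨?_, ?_⟩
  · rintro _ rfl i hi
    exact (h.hol _ rfl i hi).congr ((k.and (at_near hi)).mono fun y a => a.1 i a.2)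
  · rintro _ rfl i j hi hj
    rw [← k.self_of_nhds i hi, ← k.self_of_nhds j hj]
    exact h.chg _ rfl i j hi hj

theorem sub (h : HoT n O s) (h' : HoT n O s') : HoT n O fun e y => s e y - s' e y :=
  ⟨fun x a i b => (h.hol x a i b).sub (h'.hol x a i b), fun x a i j b c => by
    rw [h.chg x a i j b c, h'.chg x a i j b c, mul_sub]⟩

theorem zero : HoT n O fun (_ : Chart n X) _ => 0 :=
  ⟨fun x _ _ _ => hol_const 0 x, fun _ _ _ _ _ _ => (mul_zero _).symm⟩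

theorem smono (h : SmT n O s) (k : O' ⊆ O) : SmT n O' s :=
  ⟨fun e x a => h.sm e x (k a), fun e e' x a => h.chg e e' x (k a)⟩

theorem ssub (h : SmT n O s) (h' : SmT n O s') : SmT n O fun e y => s e y - s' e y :=
  ⟨fun e x a b => (h.sm e x a b).sub (h'.sm e x a b), fun e e' x a b c => by
    rw [h.chg e e' x a b c, h'.chg e e' x a b c, mul_sub]⟩

theorem scont (h : SmT n O s) (k : x ∈ O) (he : At e x) : ContinuousAt (s e) x :=
  ((h.sm e x k he).continuousAt.comp (e.continuousAt he.2)).congr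
    ((e.eventually_left_inverse he.2).mono fun _ a => congrArg (s e) a)

/-- the local correction -/
theorem loc (hL : Ha.StLoc) (hO : IsOpen O) (hx : x ∈ O) :
    ∃ (U K : Set X) (e : Chart n X), IsOpen U ∧ x ∈ U ∧ U ⊆ O ∧ e ∈ atlas (Cm n) X ∧ IsCompact K ∧
      K ⊆ e.source ∩ O ∧ ∀ v : ℕ → Chart n X → X → ℂ, (∀ k, SmT n O (v k)) →
      Tendsto (fun k => dq e K (v k e)) atTop (𝓝 0) → ∃ h : ℕ → Chart n X → X → ℂ,
        (∀ k, HoT n U (h k)) ∧ ∀ y ∈ U, ∀ e', At e' y →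
          Z2 e' (fun k z => v k e' z - h k e' z) y ∧
            ∀ k, ContinuousAt (fun z => v k e' z - h k e' z) y := by
  obtain ⟨e, he⟩ : ∃ e : Chart n X, At e x := ⟨_, at_chart x⟩
  obtain ⟨ρ, hρ, hb⟩ := nhds_basis_closedBall.eventually_iff.1
    ((e.open_target.eventually_mem (e.map_source he.2)).and (at_ev he (hO.eventually_mem hx)))
  have hU : e.source ∩ e ⁻¹' ball (e x) ρ ⊆ O := fun y hy =>
    e.left_inv hy.1 ▸ (hb (ball_subset_closedBall hy.2)).2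
  have hU' := e.isOpen_inter_preimage (isOpen_ball (x := e x) (ε := ρ))
  refine ⟨_, e.symm '' closedBall (e x) ρ, e, hU', ⟨he.2, mem_ball_self hρ⟩, hU, he.1,
    (isCompact_closedBall _ _).image_of_continuousOn
      (e.continuousOn_symm.mono fun z hz => (hb hz).1),
    by rintro _ ⟨z, hz, rfl⟩; exact ⟨e.map_target (hb hz).1, (hb hz).2⟩, fun v hv hq => ?_⟩
  obtain ⟨C, hC, H⟩ := hL n (e x) ρ hρ
  choose h h1 h2 using fun k => H (fun z => v k e (e.symm z)) fun z hz => by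
    have a := hb (ball_subset_closedBall hz)
    have := (hv k).sm e _ a.2 ⟨he.1, e.map_target a.1⟩
    rwa [e.right_inv a.1] at this
  have h3 : ∀ k, HoT n (e.source ∩ e ⁻¹' ball (e x) ρ) fun e' y => (jacM e' e y).det * h k (e y) :=
    fun k => ⟨fun y hy i hi => (jac_hol hi ⟨he.1, hy.1⟩).mul (hol_comp ⟨he.1, hy.1⟩ (h1 k _ hy.2)),
      fun y hy i j hi hj => by
        rw [← mul_assoc]
        exact congrArg (· * _) (isLB_can.cocycle i j e y hi hj ⟨he.1, hy.1⟩).symm⟩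
  refine ⟨_, h3, fun y hy e' he' => ⟨?_, fun k =>
    (scont (hv k) (hU hy) he').sub ((h3 k).hol y hy e' he').cont⟩⟩
  have h4 : Z2 e (fun k z => v k e z - h k (e z)) y :=
    ⟨ball (e x) ρ, isOpen_ball.mem_nhds hy.2, sq0 (tend0 hC hq) fun k => le_trans (le_of_eq
      (setLIntegral_congr_fun measurableSet_ball fun z hz => by
        simp only [e.right_inv (hb (ball_subset_closedBall hz)).1])) ((h2 k).trans
      (mul_le_mul_right (lintegral_mono_set (t := e '' (e.symm '' closedBall (e x) ρ))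
        fun z hz => ⟨_, ⟨z, ball_subset_closedBall hz, rfl⟩,
          e.right_inv (hb (ball_subset_closedBall hz)).1⟩) _))⟩
  refine (h4.chg ⟨he.1, hy.1⟩ he').mul he' (jac_hol he' ⟨he.1, hy.1⟩).cont ?_
  filter_upwards [hU'.mem_nhds hy, at_near he'] with z a b k
  rw [(hv k).chg e' e z (hU a) b ⟨he.1, a.1⟩, mul_sub]

/-- the gluing -/
theorem core (hL : Ha.StLoc) (hC : CRC) {n w : ℕ} {Z : Mf n} {W : Mf w} {f : Z.X → W.X}
    (hf : HolM n w f) {y₀ : W.X} {O : Set W.X} (hO : IsOpen O) (hy : y₀ ∈ O) {P N : Set Z.X}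
    (hP : IsClosed P) (hN : IsOpen N) (hPN : P ∩ f ⁻¹' O ⊆ N) {u₀ : Chart n Z.X → Z.X → ℂ}
    (h0 : SmT n (f ⁻¹' O \ P) u₀) (h1 : HoT n (N \ P) u₀) {u : ℕ → Chart n Z.X → Z.X → ℂ}
    (hu : ∀ k, SmT n (f ⁻¹' O) (u k))
    (hq : ∀ e ∈ atlas (Cm n) Z.X, ∀ K, IsCompact K → K ⊆ e.source ∩ f ⁻¹' O →
      (K ⊆ Pᶜ → Tendsto (fun k => dq e K fun x => u k e x - u₀ e x) atTop (𝓝 0)) ∧
      (K ⊆ N → Tendsto (fun k => dq e K (u k e)) atTop (𝓝 0))) :
    ∃ (O' : Set W.X) (v : Chart n Z.X → Z.X → ℂ), IsOpen O' ∧ y₀ ∈ O' ∧ O' ⊆ O ∧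
      HoT n (f ⁻¹' O' \ P) (fun e x => u₀ e x - v e x) ∧ HoT n (f ⁻¹' O' ∩ N) v := by
  have hfO := hO.preimage hf.cont
  have key : ∀ x : f ⁻¹' {y₀}, ∃ (U : Set Z.X) (a : Chart n Z.X → Z.X → ℂ)
      (h : ℕ → Chart n Z.X → Z.X → ℂ), IsOpen U ∧ x.1 ∈ U ∧
      (U ⊆ Pᶜ ∧ a = u₀ ∨ U ⊆ N ∧ a = fun _ _ => 0) ∧ (∀ k, HoT n U (h k)) ∧
      ∀ y ∈ U, ∀ e, At e y → Z2 e (fun k z => u k e z - a e z - h k e z) y ∧
        ∀ k, ContinuousAt (fun z => u k e z - a e z - h k e z) y := fun ⟨x, hx⟩ => by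
    have hx' : x ∈ f ⁻¹' O := by rw [mem_preimage, hx]; exact hy
    by_cases hp : x ∈ P
    · obtain ⟨U, K, e, a1, a2, a3, a4, a5, a6, a7⟩ :=
        loc (n := n) hL (hfO.inter hN) ⟨hx', hPN ⟨hp, hx'⟩⟩
      obtain ⟨h, b1, b2⟩ := a7 u (fun k => smono (hu k) inter_subset_left)
        ((hq e a4 K a5 fun y b => ⟨(a6 b).1, (a6 b).2.1⟩).2 fun y b => (a6 b).2.2)
      exact ⟨U, fun _ _ => 0, h, a1, a2, .inr ⟨fun y b => (a3 b).2, rfl⟩, b1,
        by simpa only [sub_zero] using b2⟩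
    · obtain ⟨U, K, e, a1, a2, a3, a4, a5, a6, a7⟩ := loc (n := n) hL (hfO.sdiff hP) ⟨hx', hp⟩
      obtain ⟨h, b1, b2⟩ := a7 _ (fun k => ssub (smono (hu k) sdiff_subset) h0)
        ((hq e a4 K a5 fun y b => ⟨(a6 b).1, (a6 b).2.1⟩).1 fun y b => (a6 b).2.2)
      exact ⟨U, u₀, h, a1, a2, .inl ⟨fun y b => (a3 b).2, rfl⟩, b1, b2⟩
  choose U a h k1 k2 k3 k4 k5 using key
  obtain ⟨t, ht⟩ := (isClosed_singleton.preimage hf.cont).isCompact.elim_finite_subcover U k1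
    fun x hx => mem_iUnion.2 ⟨⟨x, hx⟩, k2 _⟩
  have hc : ∀ i j, HoT n (U i ∩ U j) fun e y => a j e y - a i e y := fun i j => by
    rcases k3 i with ⟨b1, b2⟩ | ⟨b1, b2⟩ <;> rcases k3 j with ⟨c1, c2⟩ | ⟨c1, c2⟩ <;> rw [b2, c2]
    · simpa only [sub_self] using zero
    · exact sub zero (mono h1 fun y d => ⟨c1 d.2, b1 d.1⟩)
    · exact sub (mono h1 fun y d => ⟨b1 d.1, c1 d.2⟩) zero
    · exact sub zero zero
  obtain ⟨O₂, o1, o2, g, g1, g2⟩ := hC n w Z W f (Bd.can n Z.X) y₀ t (fun i => U i)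
    (fun i j e y => a j e y - a i e y) (fun k i => h i k) hf isLB_can (fun i => k1 i)
    (fun x hx => by simpa using ht hx) (fun i j => hc i j) (fun k i => k4 i k) fun i j e =>
      Metric.tendstoLocallyUniformlyOn_iff.2 fun ε hε x ⟨⟨b1, b2⟩, b3⟩ => by
        have b4 := ((k1 i).eventually_mem b1).and (((k1 j).eventually_mem b2).and (at_near b3))
        obtain ⟨s, c1, c2⟩ := ((k5 i x b1 e b3).1.sub (k5 j x b2 e b3).1 b3
          (b4.mono fun y d => (k5 i y d.1 e d.2.2).2)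
          (w'' := fun k y => a j e y - a i e y - (h i k e y - h j k e y))
          fun k y => by ring).unif b3 (b4.mono fun y d k =>
            ((hc i j).hol y ⟨d.1, d.2.1⟩ e d.2.2).sub
              (((k4 i k).hol y d.1 e d.2.2).sub ((k4 j k).hol y d.2.1 e d.2.2))) hε
        exact ⟨s, nhdsWithin_le_nhds c1, c2.mono fun k d y hy => by
          rw [dist_eq_norm]; exact d y hy⟩
  choose v hv using fun e x => show ∃ c : ℂ, ∀ i : t, x ∈ U i → At e x → f x ∈ O₂ →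
      c = a i e x + g i e x by
    by_cases b : ∃ i : t, x ∈ U i
    · obtain ⟨j, hj⟩ := b
      exact ⟨a j e x + g j e x, fun i hi b1 b2 => by linear_combination g2 j i e x hj hi b1 b2⟩
    · exact ⟨0, fun i hi => absurd ⟨i, hi⟩ b⟩
  have hv' : ∀ x, f x ∈ O₂ ∩ (f '' (⋃ i : t, U i)ᶜ)ᶜ → ∃ i : t, x ∈ U i ∧ HoT n {x} (g i) ∧
      ∀ᶠ y in 𝓝 x, ∀ e, At e y → v e y = a i e y + g i e y := fun x hx => by
    obtain ⟨i, hi⟩ := mem_iUnion.1 (not_not.1 fun b => hx.2 ⟨x, b, rfl⟩)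
    exact ⟨i, hi, pt (g1 i) ⟨hi, hx.1⟩, (((k1 i).eventually_mem hi).and
      ((o1.preimage hf.cont).eventually_mem hx.1)).mono fun y b e c => hv e y i b.1 c b.2⟩
  have hH : HoT n (f ⁻¹' (O ∩ (O₂ ∩ (f '' (⋃ i : t, U i)ᶜ)ᶜ)) \ P) fun e x => u₀ e x - v e x :=
    of_pt fun x hx => by
      obtain ⟨i, b1, b2, b3⟩ := hv' x hx.1.2
      rcases k3 i with ⟨-, c⟩ | ⟨c1, c⟩
      · exact cng (sub zero b2) (b3.mono fun y d e k => by rw [d e k, c]; ring)
      · exact cng (sub (pt h1 ⟨c1 b1, hx.2⟩) b2) (b3.mono fun y d e k => by rw [d e k, c, zero_add])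
  refine ⟨_, v, hO.inter (o1.inter (hf.cont.isClosedMap _
    (isOpen_iUnion fun i : t => k1 i).isClosed_compl).isOpen_compl), ⟨hy, o2, ?_⟩,
    inter_subset_left, hH, of_pt fun x hx => ?_⟩
  · rintro ⟨x, b, c⟩
    exact b (by simpa using ht c)
  by_cases hp : x ∈ P
  · obtain ⟨i, b1, b2, b3⟩ := hv' x hx.1.2
    rcases k3 i with ⟨c, -⟩ | ⟨-, c⟩
    · exact absurd hp (c b1)
    · exact cng b2 (b3.mono fun y d e k => by rw [d e k, c, zero_add])
  · exact cng (sub (pt h1 ⟨hx.2, hp⟩) (pt hH ⟨hx.1, hp⟩)) (.of_forall fun y e _ => by ring)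

end Tf

open Tf in
theorem tf_of (hT : TAK) (hL : Ha.StLoc) (hC : CRC) : TF := by
  intro n w Z W f y₀ O τ P D b hS hD hPD hb
  have hf := hS.hol.cont
  obtain ⟨B, hB, hBc, hBs⟩ := exists_mem_nhds_isClosed_subset ((hS.opn.sdiff
    (hf.isClosedMap _ (hS.cls.inter hD))).mem_nhds ⟨hS.mem, fun ⟨x, a, c⟩ => hPD x a.1 a.2 c⟩)
  obtain ⟨χ, χs, χ1, χ0⟩ := Gr.exists_bump n (hS.cls.inter (hBc.preimage hf)).isCompact
    hD.isOpen_compl fun x hx hd => (hBs hx.2).2 ⟨x, ⟨hx.1, hd⟩, rfl⟩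
  have hO : interior B ⊆ O := fun y a => (hBs (interior_subset a)).1
  let N := {x | ∀ᶠ y in 𝓝 x, χ y = 1} ∩ f ⁻¹' interior B
  have hN : IsOpen N := isOpen_setOfPred_eventually_nhds.inter (isOpen_interior.preimage hf)
  have hPN : P ∩ f ⁻¹' interior B ⊆ N := fun x a =>
    ⟨χ1 x ⟨a.1, interior_subset (s := B) a.2⟩, a.2⟩
  have hz : ∀ x ∈ D, ∀ᶠ y in 𝓝 x, χ y = 0 := fun x a =>
    notMem_tsupport_iff_eventuallyEq.1 fun c => χ0 c a
  have h0 : SmT n (f ⁻¹' interior B \ P) fun e x => χ x * b e x := by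
    refine ⟨fun e x a c => ?_, fun e e' x a c d => ?_⟩ <;> by_cases k : x ∈ D
    · exact (Gr.smAt_const 0 x).congr (ψ := fun y => χ y * b e y)
        ((hz x k).mono fun y m => by rw [m, zero_mul]) e c
    · exact (χs.at x).mul (Gr.smAt_of_hol (hb.hol x ⟨hO a.1, not_or.2 ⟨a.2, k⟩⟩ e c)) e c
    · rw [(hz x k).self_of_nhds, zero_mul, zero_mul, mul_zero]
    · exact (congrArg _ (hb.chg x ⟨hO a.1, not_or.2 ⟨a.2, k⟩⟩ e e' c d)).trans (mul_left_comm _ _ _)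
  have h1 : HoT n (N \ P) fun e x => χ x * b e x := of_pt fun x a => cng
    (pt hb ⟨hO a.1.2, not_or.2 ⟨a.2, fun k => zero_ne_one ((hz x k).self_of_nhds.symm.trans
      (Eventually.self_of_nhds (p := fun y => χ y = 1) a.1.1))⟩⟩)
    (Eventually.mono a.1.1 fun y m e _ => by rw [m, one_mul])
  obtain ⟨O₁, u, o1, o2, o3, o4, o5⟩ := hT n w Z W f y₀ (interior B) τ P N _
    ⟨hS.kah, hS.hol, isOpen_interior, mem_interior_iff_mem_nhds.2 hB, fun y a => hS.τhol y (hO a),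
      fun x a c => hS.τne x a (hO c), hS.cls, fun x a c => hS.sub x a (hO c)⟩ hN hPN h0 h1
  obtain ⟨O₂, v, p1, p2, p3, p4, p5⟩ := core hL hC hS.hol o1 o2 hS.cls hN
    (fun x a => hPN ⟨a.1, o3 a.2⟩) (smono h0 fun x a => ⟨o3 a.1, a.2⟩) h1 o4 o5
  refine ⟨O₂, _, fun e x => (1 - χ x) * b e x + v e x, p1, p2, fun y a => hO (o3 (p3 a)), p4,
    of_pt fun x a => ?_, fun e x _ _ _ _ => by ring⟩
  by_cases k : x ∈ N
  · exact cng (pt p5 ⟨a.1, k⟩) (Eventually.mono k.1 fun y m e _ => by rw [m]; ring)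
  · have hp : x ∉ P := fun c => k (hPN ⟨c, o3 (p3 a.1)⟩)
    exact cng (sub (pt hb ⟨hO (o3 (p3 a.1)), not_or.2 ⟨hp, a.2⟩⟩) (pt p4 ⟨a.1, hp⟩))
      (.of_forall fun y e _ => by ring)

end Vale.Agent.P281Z.Rg
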