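import Vale.Agent.P281Z.Rg.Sk
import Vale.Agent.P281Z.Rg.Tf
import Vale.Agent.P281Z.Pk.Nu
import Vale.Agent.P281Z.Pk.Main

/-!
# P281Z, block REG: the principal part is square integrable
-/

open scoped Manifold ContDiff Topology ENNReal ComplexConjugate
open Set Filter MeasureTheory
open Vale.Agent.P272.K Vale.Agent.P285.H281.FD
open Vale.Agent.P277Z (Hol at_chart hol_const)
open Vale.Agent.P277Z.Slc (LEq Snc isLB_can)
open Vale.Agent.P281Z.Pk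

set_option linter.unusedSectionVars false

noncomputable section

namespace Vale.Agent.P281Z.Rg

namespace Prj

theorem key {α : Type} [MeasurableSpace α] {ν : Measure α} {q : α → ℂ} (s : ℂ)
    (h1 : Integrable q ν) (h2 : Integrable (fun x => ‖q x‖ ^ 2) ν) (h3 : ∫ x, q x ∂ν = 0) :
    ∫⁻ x, ‖q x‖ₑ ^ 2 ∂ν ≤ 2 * ∫⁻ x, min (‖q x‖ₑ * ‖s - q x‖ₑ) (‖s - q x‖ₑ ^ 2) ∂ν := by
  have hm : Integrable (fun x => min (‖q x‖ * ‖s - q x‖) (‖s - q x‖ ^ 2)) ν :=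
    ((h1.norm.mul_const ‖s‖).add h2).mono' ((show Continuous fun z : ℂ =>
      min (‖z‖ * ‖s - z‖) (‖s - z‖ ^ 2) by fun_prop).comp_aestronglyMeasurable h1.1)
      (.of_forall fun x => by
        rw [Real.norm_of_nonneg (by positivity), Pi.add_apply]
        nlinarith [min_le_left (‖q x‖ * ‖s - q x‖) (‖s - q x‖ ^ 2), norm_sub_le s (q x),
          norm_nonneg (q x)])
  have h4 : Integrable (fun x => (q x * conj s).re) ν := (h1.mul_const _).re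
  have h5 : ∫ x, (q x * conj s).re ∂ν = 0 := by
    have := integral_re (h1.mul_const (conj s))
    rwa [integral_mul_const, h3, zero_mul] at this
  have h6 := integral_mono h2 ((h4.const_mul 2).add (hm.const_mul 2)) fun x => by
    have a : (q x * conj s).re = ‖q x‖ ^ 2 + (q x * conj (s - q x)).re := by
      rw [map_sub, mul_sub, Complex.sub_re, Complex.mul_conj, Complex.ofReal_re,
        Complex.normSq_eq_norm_sq]
      ring
    have b := (abs_le.1 (Complex.abs_re_le_norm (q x * conj (s - q x)))).1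
    rw [norm_mul, Complex.norm_conj] at b
    rw [Pi.add_apply, a]
    rcases min_choice (‖q x‖ * ‖s - q x‖) (‖s - q x‖ ^ 2) with c | c <;> rw [c] <;>
      nlinarith [sq_nonneg (‖q x‖ - ‖s - q x‖), sq_nonneg ‖q x‖, sq_nonneg ‖s - q x‖]
  simp only [Pi.add_apply] at h6
  rw [integral_add (h4.const_mul 2) (hm.const_mul 2), integral_const_mul, integral_const_mul, h5,
    mul_zero, zero_add] at h6
  have h7 := ENNReal.ofReal_le_ofReal h6
  rw [ENNReal.ofReal_mul zero_le_two, ofReal_integral_eq_lintegral_ofReal h2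
    (.of_forall fun x => by positivity), ofReal_integral_eq_lintegral_ofReal hm
    (.of_forall fun x => by positivity)] at h7
  simpa only [ENNReal.ofReal_min, ENNReal.ofReal_mul (norm_nonneg _),
    ENNReal.ofReal_pow (norm_nonneg _), ofReal_norm, ENNReal.ofReal_ofNat] using h7

variable {n : ℕ} {X κ : Type} [TopologicalSpace X] [ChartedSpace (Cm n) X]
  [IsManifold 𝓘(ℂ, Cm n) ω X] [Fintype κ] {G : κ → Set X} {S : Set X} {c : κ → ℤ} {u a : X → ℂ}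
  {x : X} {ζ : κ → X → ℂ} {φ : X → ℝ≥0∞}

theorem bd (h : ContinuousAt a x) : ∃ K : ℝ≥0∞, K ≠ ⊤ ∧ ∀ᶠ y in 𝓝 x, ‖a y‖ₑ ≤ K :=
  ⟨‖a x‖ₑ + 1, by simp, h.enorm.eventually
    (ge_mem_nhds (ENNReal.lt_add_right enorm_ne_top one_ne_zero))⟩

theorem li_succ (h : Li n φ x) : Li n (fun y => φ y + 1) x := by
  obtain ⟨e, he, U, hU, h⟩ := h
  refine ⟨e, he, _, inter_mem hU (Metric.ball_mem_nhds _ one_pos), ?_⟩
  rw [lintegral_add_right _ measurable_const, setLIntegral_one]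
  exact ENNReal.add_lt_top.2 ⟨(lintegral_mono_set inter_subset_left).trans_lt h,
    (measure_mono inter_subset_right).trans_lt measure_ball_lt_top⟩

theorem li_one : Li n (fun _ => 0 + 1) x :=
  li_succ ⟨_, at_chart x, univ, univ_mem, by simp⟩

theorem mn_hol (h : Mn n G S c u x) (hζ : ∀ l, LEq n (G l) x (ζ l)) (hS : S ⊆ off G) (k : ℕ)
    (hc : ∀ l, x ∈ G l → 0 ≤ c l + k) :
    ∃ a, Hol n a x ∧ ∀ᶠ y in 𝓝 x, y ∈ S → u y * (∏ l, ζ l y) ^ k = a y := by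
  obtain ⟨b, h1, -, h2⟩ := h ζ hζ
  refine ⟨fun y => b y * ∏ l, ζ l y ^ (c l + k), h1.mul (Hol.prod _ fun l _ => ?_), ?_⟩
  · by_cases m : x ∈ G l
    · obtain ⟨r, hr⟩ := Int.eq_ofNat_of_zero_le (hc l m)
      simpa only [hr, zpow_natCast] using (hζ l).hol.pow r
    · exact (hζ l).hol.zpow (mt (hζ l).mem.1 m) _
  filter_upwards [h2, off_iff hζ] with y m1 m2 m3
  rw [m1 m3, mul_assoc, ← Finset.prod_pow, ← Finset.prod_mul_distrib]
  exact congrArg _ (Finset.prod_congr rfl fun l _ => by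
    rw [zpow_add₀ (m2.1 (hS m3) l), zpow_natCast])

theorem mn_ne (h : Mn n G S c u x) (hG : Snc n G) (hx : x ∈ S) (hx' : x ∈ off G) : u x ≠ 0 := by
  obtain ⟨ζ, hζ⟩ := Hyp.of_snc hG x
  obtain ⟨b, -, h1, h2⟩ := h ζ hζ
  rw [h2.self_of_nhds hx]
  exact mul_ne_zero h1 (Finset.prod_ne_zero_iff.2 fun l _ =>
    zpow_ne_zero _ (mt (hζ l).mem.1 (hx' l)))

theorem clo (hG : Snc n G) (h : ∀ᶠ y in 𝓝 x, y ∈ off G → y ∈ S) : x ∈ closure S :=
  mem_closure_iff_frequently.2 (((mem_closure_iff_frequently.1 (snc_dense_off hG x)).and_eventually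
    h).mono fun _ k => k.2 k.1)

theorem ext (hG : Snc n G) (h : ∀ᶠ y in 𝓝 x, y ∈ off G → y ∈ S) (ha : Hol n a x)
    (k : ∀ᶠ y in 𝓝 x, y ∈ S → u y = a y) : ∀ᶠ y in 𝓝 x, a y = extendFrom S u y := by
  filter_upwards [h.eventually_nhds, k.eventually_nhds, ha.near] with y m1 m2 m3
  exact (extendFrom_eq (clo hG m1) ((m3.cont.mono_left nhdsWithin_le_nhds).congr'
    (eventually_nhdsWithin_iff.2 (m2.mono fun z b c => (b c).symm)))).symm

theorem meas [MeasurableSpace X] [BorelSpace X] (hS : IsOpen S) (h : ∀ x ∈ S, ContinuousAt a x) :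
    Measurable (S.indicator a) := by
  classical
  rw [← piecewise_eq_indicator]
  exact ContinuousOn.measurable_piecewise (fun x m => (h x m).continuousWithinAt)
    continuousOn_const hS.measurableSet

section et

variable {w e : ℕ} {B : Bs w} {E : Et B e 1} (hE : E.Geo) {i : B.l.ι} {y₀ : B.W.X}
  {O O' : Set B.W.X} {τ : B.W.X → ℂ} {j : ℤ} {P D : Set E.X.X}
  {H R : Chart (w + e) E.X.X → E.X.X → ℂ} (hS : Sit E.X B.W E.g y₀ O τ P)
  (hQ : ∀ y ∈ O, y ∈ E.Q ↔ τ y = 0) (hDG : ∀ x ∈ D, x ∉ off E.G)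
  (hM : ∀ x ∉ P, E.g x ∈ O → (∀ᶠ y in 𝓝 x, y ∈ off E.G → y ∈ oq E i) ∧ ∃ c : E.κ → ℤ,
    (∀ ch, At ch x → Mn (w + e) E.G (oq E i) c (tt E i τ j ch) x) ∧
      ∀ l, x ∈ E.G l → -1 ≤ c l ∧ (x ∉ D → 0 ≤ c l))

theorem oq_off : oq E i ⊆ off E.G := fun _ a => a.1.2

include hE in
theorem oq_open : IsOpen (oq E i) :=
  (hE.oO i).inter (hE.thin.closed.isOpen_compl.preimage hE.hol.cont)

include hS hQ in
theorem notP {x} (a : x ∈ oq E i) (b : E.g x ∈ O) : x ∉ P :=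
  fun c => a.2 ((hQ _ b).2 (hS.sub x c b))

include hE hS hQ hDG hM in
theorem split (hT : TF) (hD : IsClosed D) (hPD : ∀ x ∈ P, x ∈ D → E.g x ≠ y₀) :
    ∃ (O' : Set B.W.X) (H R : Chart (w + e) E.X.X → E.X.X → ℂ), IsOpen O' ∧ y₀ ∈ O' ∧ O' ⊆ O ∧
      HoT (w + e) (E.g ⁻¹' O' \ P) H ∧ HoT (w + e) (E.g ⁻¹' O' \ D) R ∧
      ∀ x ∈ oq E i ∩ E.g ⁻¹' O', ∀ ch, At ch x → tt E i τ j ch x = H ch x + R ch x := by
  have h1 : ∀ x ∈ E.g ⁻¹' O \ (P ∪ D), ∀ ch, At ch x → ∃ a, Hol (w + e) a x ∧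
      (∀ᶠ y in 𝓝 x, y ∈ oq E i → tt E i τ j ch y = a y) ∧
      ∀ᶠ y in 𝓝 x, a y = extendFrom (oq E i) (tt E i τ j ch) y := fun x a ch b => by
    obtain ⟨k1, c, k2, k3⟩ := hM x (fun m => a.2 (.inl m)) a.1
    obtain ⟨ζ, hζ⟩ := Hyp.of_snc hE.snc x
    obtain ⟨v, k4, k5⟩ := mn_hol (k2 ch b) hζ oq_off 0 fun l m => by
      simpa using (k3 l m).2 fun m => a.2 (.inr m)
    simp only [pow_zero, mul_one] at k5
    exact ⟨v, k4, k5, ext hE.snc k1 k4 k5⟩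
  have hb : HoT (w + e) (E.g ⁻¹' O \ (P ∪ D)) fun ch => extendFrom (oq E i) (tt E i τ j ch) := by
    refine ⟨fun x a ch b => ?_, fun x a ch ch' b b' => ?_⟩
    · obtain ⟨v, k1, -, k2⟩ := h1 x a ch b
      exact k1.congr k2
    obtain ⟨v, k1, k2, k3⟩ := h1 x a ch b
    obtain ⟨v', m1, m2, m3⟩ := h1 x a ch' b'
    rw [← k3.self_of_nhds, ← m3.self_of_nhds]
    have := mem_closure_iff_nhdsWithin_neBot.1 (clo hE.snc (hM x (fun m => a.2 (.inl m)) a.1).1)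
    refine tendsto_nhds_unique_of_eventuallyEq (l := 𝓝[oq E i] x)
      (k1.cont.mono_left nhdsWithin_le_nhds)
      (((Tf.jac_hol b b').mul m1).cont.mono_left nhdsWithin_le_nhds)
      (eventually_nhdsWithin_iff.2 ?_)
    filter_upwards [k2, m2, at_near b, at_near b'] with y r1 r2 r3 r4 r5
    rw [← r1 r5, ← r2 r5]
    unfold tt
    rw [hE.tchg i ch ch' y r5.1 r3 r4, pow_one, mul_left_comm]
  obtain ⟨O', H, R, o1, o2, o3, hH, hR, hHR⟩ := hT _ w E.X B.W E.g y₀ O τ P D _ hS hD hPD hb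
  refine ⟨O', H, R, o1, o2, o3, hH, hR, fun x a ch b => ?_⟩
  have c := notP hS hQ a.1 (o3 a.2)
  have d : x ∉ D := fun m => hDG x m (oq_off a.1)
  obtain ⟨v, -, k1, k2⟩ := h1 x ⟨o3 a.2, not_or.2 ⟨c, d⟩⟩ ch b
  rw [k1.self_of_nhds a.1, k2.self_of_nhds]
  exact hHR ch x b a.2 c d

include hE hS hQ hM in
theorem quot (o1 : IsOpen O') (o3 : O' ⊆ O) (hH : HoT (w + e) (E.g ⁻¹' O' \ P) H) :
    (∀ x ∈ oq E i ∩ E.g ⁻¹' O', ∀ ch, At ch x → qt E i H x * E.t i ch x = H ch x) ∧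
      Measurable ((oq E i ∩ E.g ⁻¹' O').indicator (qt E i H)) ∧
      Measurable ((oq E i ∩ E.g ⁻¹' O').indicator fun x => τ (E.g x) ^ j) := by
  have hW := (oq_open hE (i := i)).inter (o1.preimage hE.hol.cont)
  have h3 : ∀ x ∈ oq E i ∩ E.g ⁻¹' O', ∀ ch, At ch x → E.t i ch x ≠ 0 := fun x a ch b => by
    obtain ⟨-, c, k, -⟩ := hM x (notP hS hQ a.1 (o3 a.2)) (o3 a.2)
    have m := mn_ne (k ch b) hE.snc a.1 (oq_off a.1)
    exact right_ne_zero_of_mul m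
  have h4 : ∀ x ∈ oq E i ∩ E.g ⁻¹' O', ∀ ch, At ch x → qt E i H x * E.t i ch x = H ch x :=
    fun x a ch b => by
      rw [hE.tchg i ch _ x a.1.1 b (at_chart x), pow_one, mul_left_comm, qt,
        div_mul_cancel₀ _ (h3 x a _ (at_chart x))]
      exact (hH.chg x ⟨a.2, notP hS hQ a.1 (o3 a.2)⟩ ch _ b (at_chart x)).symm
  refine ⟨h4, meas hW fun x a => ?_, meas hW fun x a => (((hE.hol.at x).hol
    (hS.τhol _ (o3 a.2))).zpow (fun c => a.1.2 ((hQ _ (o3 a.2)).2 c)) j).cont⟩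
  refine (((hH.hol x ⟨a.2, notP hS hQ a.1 (o3 a.2)⟩ _ (at_chart x)).div
    (hE.thol i _ x a.1.1 (at_chart x)) (h3 x a _ (at_chart x))).cont).congr ?_
  filter_upwards [hW.mem_nhds a, at_near (at_chart (n := w + e) x)] with y b c
  rw [← h4 y b _ c, mul_div_cancel_right₀ _ (h3 y b _ c)]

include hE in
theorem near (o1 : IsOpen O') {x} (a : E.g x ∈ O') :
    ∀ᶠ y in 𝓝 x, E.g y ∈ O' ∧ At (chartAt (Cm (w + e)) x) y :=
  ((o1.preimage hE.hol.cont).eventually_mem a).and (at_near (at_chart x))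

include hE hM in
theorem lx (o1 : IsOpen O') (o3 : O' ⊆ O) (hH : HoT (w + e) (E.g ⁻¹' O' \ P) H)
    (hR : HoT (w + e) (E.g ⁻¹' O' \ D) R)
    (h2 : ∀ x ∈ oq E i ∩ E.g ⁻¹' O', ∀ ch, At ch x → tt E i τ j ch x = H ch x + R ch x)
    {q r : E.X.X → ℂ} (h5 : ∀ x ∈ oq E i ∩ E.g ⁻¹' O', ∀ ch, At ch x →
      q x * E.t i ch x = H ch x ∧ r x * E.t i ch x = R ch x) {x} (hx : E.g x ∈ O')
    (hp : x ∈ D → x ∉ P) : Lx E i (fun y => min (‖q y‖ₑ * ‖r y‖ₑ) (‖r y‖ₑ ^ 2)) x := by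
  by_cases d : x ∈ D
  · obtain ⟨-, c, k2, k3⟩ := hM x (hp d) (o3 hx)
    obtain ⟨ζ, hζ⟩ := Hyp.of_snc hE.snc x
    obtain ⟨v, k4, k5⟩ := mn_hol (k2 _ (at_chart x)) hζ oq_off 1 fun l m => by
      have := (k3 l m).1
      omega
    have k6 := hH.hol x ⟨hx, hp d⟩ _ (at_chart x)
    obtain ⟨K, k7, k8⟩ := bd (k6.mul (k4.sub (k6.mul (Hol.prod Finset.univ
      fun l _ => (hζ l).hol)))).cont
    refine (li_wt hE.snc hζ (γ := fun _ => -1) fun _ _ => by norm_num).mono k7 ?_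
    filter_upwards [near hE o1 hx, k5, k8, off_iff hζ] with y m1 m2 m3 m4
    refine indicator_apply_le' (fun m5 => ?_) fun _ => zero_le
    obtain ⟨r1, r2⟩ := h5 y ⟨m5, m1.1⟩ _ m1.2
    have r3 := Finset.prod_ne_zero_iff.2 fun l (_ : l ∈ Finset.univ) => m4.1 (oq_off m5) l
    rw [← m2 m5, pow_one, ← sub_mul, h2 y ⟨m5, m1.1⟩ _ m1.2, add_sub_cancel_left, ← mul_assoc,
      enorm_mul] at m3
    refine (mul_le_mul_left (min_le_left _ _) _).trans ?_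
    rw [sq, mul_mul_mul_comm, ← enorm_mul, ← enorm_mul, r1, r2, ← enorm_mul,
      Real.finsetProd_rpow _ _ fun _ _ => norm_nonneg _, ← norm_prod, Real.rpow_neg_one,
      ENNReal.ofReal_inv_of_pos (norm_pos_iff.2 r3), ofReal_norm, ← div_eq_mul_inv]
    exact (ENNReal.le_div_iff_mul_le (.inl (enorm_ne_zero.2 r3)) (.inl enorm_ne_top)).2 m3
  · obtain ⟨K, k1, k2⟩ := bd (hR.hol x ⟨hx, d⟩ _ (at_chart x)).cont
    refine li_one.mono (ENNReal.pow_ne_top (n := 2) k1) ?_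
    filter_upwards [near hE o1 hx, k2] with y m1 m2
    refine indicator_apply_le' (fun m5 => ?_) fun _ => zero_le
    refine (mul_le_mul_left (min_le_right _ _) _).trans ?_
    rw [← mul_pow, ← enorm_mul, (h5 y ⟨m5, m1.1⟩ _ m1.2).2, zero_add, mul_one]
    exact pow_le_pow_left' m2 2

end et

end Prj

open Prj in
theorem prj_of (hT : TF) (hL : LM) : PRJ := by
  intro w e B E hE hOrt i y₀ O τ j P D hS hO hQ hD hDG hPD hM x₀ hx₀ hg₀
  obtain ⟨O', H, R, o1, o2, o3, hH, hR, h2⟩ := split hE hS hQ hDG hM hT hD hPD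
  obtain ⟨h4, hqm, hsm⟩ := quot hE hS hQ hM o1 o3 hH
  obtain ⟨q, hq⟩ : ∃ q, q = (oq E i ∩ E.g ⁻¹' O').indicator (qt E i H) := ⟨_, rfl⟩
  obtain ⟨s, hs⟩ : ∃ s, s = (oq E i ∩ E.g ⁻¹' O').indicator fun x => τ (E.g x) ^ j := ⟨_, rfl⟩
  rw [← hq] at hqm
  rw [← hs] at hsm
  have h5 : ∀ x ∈ oq E i ∩ E.g ⁻¹' O', ∀ ch, At ch x → q x * E.t i ch x = H ch x ∧
      (s x - q x) * E.t i ch x = R ch x := fun x a ch b => by
    rw [hq, hs, indicator_of_mem a, indicator_of_mem a, sub_mul, h4 x a ch b]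
    exact ⟨rfl, sub_eq_of_eq_add' (h2 x a ch b)⟩
  have hy : y₀ ∈ B.l.U i := hO hS.mem
  have h7 := ((hL w e B E hE i y₀ hy _ ((hqm.enorm.mul (hsm.sub hqm).enorm).min
    ((hsm.sub hqm).enorm.pow_const 2))).1 fun x a => lx hE hM o1 o3 hH hR h2 h5 (a ▸ o2)
      fun d m => hPD x m d a).mono (hE.base.ch i _ hy)
    hE.thin.closed.isOpen_compl (F := fun z => ∫⁻ x, ‖q x‖ₑ ^ 2 ∂E.ν i z) (C := 2) (by simp)
    ((o1.eventually_mem o2).mono fun z a b => by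
      obtain ⟨k1, k2, k3⟩ := hOrt i z (hO (o3 a)) b _ H ((o1.preimage hE.hol.cont).sdiff hS.cls)
        (fun x m => ⟨by rwa [mem_preimage, m], fun c => b ((hQ z (o3 a)).2
          (m ▸ hS.sub x c (by rw [m]; exact o3 a)))⟩) hH
      have k4 : ∀ᵐ x ∂E.ν i z, q x = qt E i H x ∧ s x = τ z ^ j := by
        filter_upwards [(hE.nu (hO (o3 a)) b).2] with x m
        have m1 : E.g x = z := m.1
        have m2 : x ∈ oq E i ∩ E.g ⁻¹' O' :=
          ⟨⟨m.2, by rwa [mem_preimage, m1]⟩, by rwa [mem_preimage, m1]⟩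
        rw [hq, hs, indicator_of_mem m2, indicator_of_mem m2, m1]
        exact ⟨rfl, rfl⟩
      refine (lintegral_congr_ae ?_).trans_le ((key (τ z ^ j) k1 k2 k3).trans_eq
        (congrArg _ (lintegral_congr_ae ?_)))
      · filter_upwards [k4] with x m
        rw [m.1]
      · filter_upwards [k4] with x m
        rw [← m.1, ← m.2]
        rfl)
  have h8 := (hL w e B E hE i y₀ hy (fun x => ‖q x‖ₑ ^ 2) (hqm.enorm.pow_const 2)).2 h7 x₀ hg₀
  have hx : E.g x₀ ∈ O' := hg₀ ▸ o2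
  obtain ⟨K, k1, k2⟩ := bd (hR.hol x₀ ⟨hx, hx₀⟩ _ (at_chart x₀)).cont
  refine (li_succ h8).mono (C := 2 + 2 * K ^ 2) (by simp [ENNReal.mul_eq_top, k1]) ?_
  filter_upwards [near hE o1 hx, k2] with y m1 m2
  refine indicator_apply_le' (fun m5 => ?_) fun _ => zero_le
  rw [indicator_of_mem m5, ← mul_pow, ← enorm_mul, (h5 y ⟨m5, m1.1⟩ _ m1.2).1,
    h2 y ⟨m5, m1.1⟩ _ m1.2, mul_add, mul_one]
  exact (Ha.Rn.sq_le (norm_add_le _ _)).trans (add_le_add (mul_le_mul_left le_self_add _)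
    ((mul_le_mul_right (pow_le_pow_left' m2 2) _).trans le_add_self))

end Vale.Agent.P281Z.Rg
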