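import Vale.Agent.P281Z.Rg.Sk
import Vale.Agent.P281Z.Pk.UpB
import Vale.Agent.P281Z.Nt.Down

/-!
# P281Z, block REG: the strata are families of forms
-/

open scoped Manifold ContDiff Topology
open Set Filter
open Vale.Agent.P272.K Vale.Agent.P285.H281.FD
open Vale.Agent.P277Z (Hol)
open Vale.Agent.P277Z.Slc (LEq)
open Vale.Agent.P281Z.Pk Vale.Agent.P281Z.Lv

noncomputable section

namespace Vale.Agent.P281Z.Rg

theorem hor : HOR := fun _ _ _ _ hE l hc h _ hx =>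
  Nt.hy_freq hc (Nt.hy_of_snc hE.snc l) (hE.thin.an.pre hE.hol) h hx

theorem monc : MONC := by
  intro w d B C _ A i c x hx hc ζ hζ
  have hE := A.lg.toGeo
  obtain ⟨b, b1, -, b2, b3⟩ := A.ord i c x hx hc ζ hζ
  refine ⟨b, b1, Up.unit_of hE.snc hζ b1 ?_ b3, b2.mono fun y k hy => k hy.2⟩
  filter_upwards [b2, at_near hc, hE.hol.cont.continuousAt (lb_near hE.base.lb hx)]
    with y k1 k2 k3 k4
  exact left_ne_zero_of_mul (k1 k4 ▸ A.lg.nz i c y ⟨⟨k3, A.lg.pre y k4⟩, k4⟩ k2)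

theorem se_of : SE := by
  intro w d B C _ A lam m hg hr ho
  have hE := A.lg.toGeo
  refine ⟨one_pos, hE.base, hg.kah, hg.hol, hg.snc, hE.thin, hE.thin, subset_rfl, hg.reg, ho,
    hr.thol, hr.tchg, hr.lchg, fun i c x hx hc => ?_, fun i c x hx hQ hc => ?_, continuous_const,
    fun x ζ _ => ⟨0, 1, one_pos, .of_forall fun _ => by simp⟩⟩
  all_goals
    obtain ⟨ζ, hζ, -⟩ := hg.snc x
    obtain ⟨b, b1, b2, b3⟩ := hr.mon i c x hx hc ζ hζ
  · refine ⟨1, fun _ y => ∏ l, ζ l y ^ (-A.a l).toNat, fun _ y => b y * ∏ l, ζ l y ^ (A.a l).toNat,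
      fun _ => ⟨Hol.prod _ fun l _ => (hζ l).hol.pow _,
        b1.mul (Hol.prod _ fun l _ => (hζ l).hol.pow _)⟩, ?_⟩
    filter_upwards [b3, off_iff hζ] with y k1 k2 hy
    have k3 := k2.1 hy.2
    refine ⟨⟨0, Finset.prod_ne_zero_iff.2 fun l _ => pow_ne_zero _ (k3 l)⟩, fun _ => ?_⟩
    rw [k1 hy, mul_left_comm, ← Finset.prod_mul_distrib]
    refine congrArg _ (Finset.prod_congr rfl fun l _ => ?_)
    rw [← zpow_natCast, ← zpow_natCast, ← zpow_add₀ (k3 l)]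
    congr 1
    omega
  · refine ((Nt.reg_freq hg.hol hg.snc (hg.reg _ hQ)).and_eventually
      (b3.and ((off_iff hζ).and (b1.ne_near b2)))).mono fun y ⟨⟨k1, k2⟩, k3, k4, k5⟩ => ?_
    have k6 : y ∈ (se A lam m).O i :=
      ⟨show gm A.L C.g m y ∈ B.l.U i \ C.Q from k2 ▸ ⟨hx, hQ⟩, k1⟩
    exact ⟨k2, k6, k3 k6 ▸ mul_ne_zero k5
      (Finset.prod_ne_zero_iff.2 fun l _ => zpow_ne_zero _ (k4.1 k1 l))⟩

end Vale.Agent.P281Z.Rg
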