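import Vale.Agent.P281Z.Rg.Sk
import Vale.Agent.P281Z.Lg.Rs
import Vale.Agent.P281Z.La.Aa

/-!
# P281Z, block REG: the geometry of the strata
-/

open scoped Manifold ContDiff Topology
open Set Filter Function
open Vale.Agent.P272.K Vale.Agent.P285.H281.FD
open Vale.Agent.P277Z (Hol at_chart)
open Vale.Agent.P277Z.Slc (Ind LEq Snc dd dd_congr ind_iff_surj)
open Vale.Agent.P281Z.Lg Vale.Agent.P281Z.Pk Vale.Agent.P281Z.Lv

noncomputable section

namespace Vale.Agent.P281Z.Rg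

namespace Sgm

/-- restriction of independent functions to an immersed manifold which is cut out by `ζ` -/
theorem ind_pull {n d : ℕ} {X F : Type} [TopologicalSpace X] [ChartedSpace (Cm n) X]
    [TopologicalSpace F] [ChartedSpace (Cm d) F] [IsManifold 𝓘(ℂ, Cm n) ω X]
    [IsManifold 𝓘(ℂ, Cm d) ω F] {i : F → X} {x : F} (hi : HolA d n i x) (him : Imm d n i x)
    {α β : Type} [Fintype α] {ζ : α → X → ℂ} {h : β → X → ℂ} (hc : Fintype.card α + d = n)
    (h0 : ∀ a, ∀ᶠ z in 𝓝 x, ζ a (i z) = 0) (H : Ind n (Sum.elim ζ h) (i x)) :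
    Ind d (fun b z => h b (i z)) x := by
  have he := at_chart (n := n) (i x)
  have : Finite β := ((H.comp Sum.inr Sum.inr_injective).2 _ he).finite
  have := Fintype.ofFinite β
  refine ⟨fun b => hi.hol (H.1 (.inr b)), fun c hc' => (ind_iff_surj _).2 fun w => ?_⟩
  obtain ⟨v, hv⟩ := (ind_iff_surj _).1 (H.2 _ he) (Sum.elim 0 w)
  have hk := (ContinuousLinearMap.pi fun a =>
    dd (ζ a) (chartAt (Cm n) (i x)) (i x)).toLinearMap.finrank_range_add_finrank_ker
  have H0 : Ind n ζ (i x) := H.comp Sum.inl Sum.inl_injective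
  rw [LinearMap.range_eq_top.2 ((ind_iff_surj _).1 (H0.2 _ he)), finrank_top] at hk
  have hr := LinearMap.finrank_range_of_inj (f := (df i c _ x).toLinearMap) (him c _ hc' he)
  have hle : (df i c (chartAt (Cm n) (i x)) x).toLinearMap.range ≤
      (ContinuousLinearMap.pi fun a => dd (ζ a) (chartAt (Cm n) (i x)) (i x)).toLinearMap.ker := by
    rintro _ ⟨u, rfl⟩
    refine funext fun a => (DFunLike.congr_fun (dd_comp (H.1 (.inl a)) hi hc' he) u).symm.trans ?_
    rw [show dd (fun x => Sum.elim ζ h (.inl a) (i x)) c x = _ from dd_congr (h0 a) hc']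
    simp [dd]
  obtain ⟨u, hu⟩ := (Submodule.eq_of_le_of_finrank_eq hle (by
    simp only [Module.finrank_pi, Fintype.card_fin] at hk hr
    omega)).ge (show v ∈ _ from funext fun a => congrFun hv (.inl a))
  refine ⟨u, funext fun b => (DFunLike.congr_fun (dd_comp (H.1 (.inr b)) hi hc' he) u).trans ?_⟩
  exact (congrArg (dd (h b) _ (i x)) hu).trans (congrFun hv (.inr b))

theorem leq_one {n : ℕ} {X : Type} [TopologicalSpace X] [ChartedSpace (Cm n) X] {D : Set X} {x : X}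
    (h : ∀ᶠ y in 𝓝 x, y ∉ D) : LEq n D x fun _ => 1 :=
  ⟨h.mono fun _ a => iff_of_false one_ne_zero a, fun _ _ =>
    ⟨analyticAt_const, fun k => absurd k one_ne_zero⟩⟩

variable {w d : ℕ} {B : Bs w} {C : Et B d 1} [LinearOrder C.κ] (A : Dt C) {m : ℕ}
  {z : (A.L.Y (w + m)).X}

theorem mem {l : C.κ} (h : l ∈ A.L.lab z) : A.L.pt z ∈ C.G l := by
  have k := A.geo.mem _ z l h
  unfold pol at k
  split_ifs at k
  exacts [k, k.elim]

/-- the key: independence on the stratum -/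
theorem key {β : Type} {ζ : C.κ → C.X.X → ℂ} {h : β → C.X.X → ℂ}
    (hζ : ∀ l, LEq (w + d) (C.G l) (A.L.pt z) (ζ l))
    (H : Ind (w + d) (Sum.elim (fun l : {l // A.L.pt z ∈ C.G l} => ζ l) h) (A.L.pt z)) :
    Ind (w + m) (Sum.elim (fun (l : {l // z ∈ tr A m l}) y => ζ l (A.L.pt y))
      fun b y => h b (A.L.pt y)) z := by
  have H1 := H.comp (β := {l // l ∈ A.L.lab z} ⊕ ({l // z ∈ tr A m l} ⊕ β))
    (Sum.elim (fun l => .inl ⟨l.1, mem A l.2⟩) (Sum.map (fun l => ⟨l.1, l.2.2⟩) id)) (by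
      rintro (a | a | a) (b | b | b) e <;> simp only [Sum.elim_inl, Sum.elim_inr, Sum.map_inl,
        Sum.map_inr, Sum.inl.injEq, Sum.inr.injEq, Subtype.mk.injEq, id, reduceCtorEq] at e ⊢
      exacts [Subtype.ext e, (b.2.1 (e ▸ a.2)).elim, (a.2.1 (e ▸ b.2)).elim, Subtype.ext e, e])
  have H2 := ind_pull ((A.geo.hol _).at z) (A.geo.imm _ z)
    (ζ := fun l : {l // l ∈ A.L.lab z} => ζ l)
    (h := Sum.elim (fun l : {l // z ∈ tr A m l} => ζ l) h)
    (by rw [Fintype.card_coe]; exact A.L.card _ z) (fun l => by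
      filter_upwards [(rs_all A.L).lab _ z,
        (A.geo.hol _).cont.continuousAt.eventually (hζ l).1] with y h1 h2
      exact h2.2 (mem A (h1.symm ▸ l.2 : l.1 ∈ A.L.lab y)))
    (ind_congr H1 (by rintro (a | a | a) <;> exact .of_forall fun _ => rfl))
  exact ind_congr H2 (by rintro (a | a) <;> exact .of_forall fun _ => rfl)

theorem leq0 {ζ : C.κ → C.X.X → ℂ} (hζ : ∀ l, LEq (w + d) (C.G l) (A.L.pt z) (ζ l)) {l : C.κ}
    (hl : l ∉ A.L.lab z) : LEq (w + m) (tr A m l) z fun y => ζ l (A.L.pt y) := by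
  refine ⟨?_, fun c hc => ⟨(A.geo.hol _).hol (hζ l).hol c hc, fun k => ?_⟩⟩
  · filter_upwards [(rs_all A.L).lab _ z,
      (A.geo.hol _).cont.continuousAt.eventually (hζ l).1] with y h1 h2
    exact h2.trans ⟨fun a => ⟨h1 ▸ hl, a⟩, And.right⟩
  · exact ((key A hζ (trv_empty A.lg.snc ζ hζ)).2 c hc).ne_zero (.inl ⟨l, hl, (hζ l).mem.1 k⟩)

theorem one {l : C.κ} (hl : l ∈ A.L.lab z) : LEq (w + m) (tr A m l) z fun _ => 1 :=
  leq_one (((rs_all A.L).lab _ z).mono fun _ h1 h2 => h2.1 (h1 ▸ hl))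

theorem leq {l : C.κ} {ζ : C.X.X → ℂ} (hl : l ∉ A.L.lab z) (h : LEq (w + d) (C.G l) (A.L.pt z) ζ) :
    LEq (w + m) (tr A m l) z fun y => ζ (A.L.pt y) := by
  obtain ⟨ξ, h1, -⟩ := A.lg.snc (A.L.pt z)
  have k := leq0 A (ζ := update ξ l ζ) (fun l' => by
    by_cases c : l' = l
    · subst c
      rwa [update_self]
    · rw [update_of_ne c]
      exact h1 l') hl
  rwa [update_self] at k

/-- transversal functions stay transversal -/
theorem trv {β : Type} {h : β → C.X.X → ℂ} (H : Lg.Trv C.G h (A.L.pt z)) :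
    ∃ ξ : C.κ → (A.L.Y (w + m)).X → ℂ, (∀ l, LEq (w + m) (tr A m l) z (ξ l)) ∧
      Ind (w + m) (Sum.elim (fun l : {l // z ∈ tr A m l} => ξ l) fun b y => h b (A.L.pt y)) z := by
  obtain ⟨ζ, h1, -⟩ := A.lg.snc (A.L.pt z)
  refine ⟨fun l => if l ∈ A.L.lab z then fun _ => 1 else fun y => ζ l (A.L.pt y), fun l => ?_,
    ind_congr (key A h1 (H ζ h1)) ?_⟩
  · beta_reduce
    split_ifs with k
    exacts [one A k, leq0 A h1 k]
  · rintro (a | a)
    · exact .of_forall fun y => by simp only [Sum.elim_inl, if_neg a.2.1]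
    · exact .of_forall fun _ => rfl

end Sgm

/-- **SG** -/
theorem sg : SG := fun _ _ _ _ _ A _ =>
  { kah := kim _ _ _ _ _ (A.geo.hol _) (A.geo.imm _) A.geo.kah
    hol := A.lg.hol.comp (A.geo.hol _)
    lab := (rs_all A.L).lab _
    leq := fun _ _ _ => Sgm.leq A
    one := fun _ _ => Sgm.one A
    snc := fun _ =>
      let ⟨ξ, h1, h2⟩ := Sgm.trv A (trv_empty A.lg.snc)
      ⟨ξ, h1, h2.comp Sum.inl Sum.inl_injective⟩
    reg := fun y hy z hz e he =>
      let ⟨_, h1, h2⟩ := Sgm.trv A (A.lg.reg y hy (A.L.pt z) hz e he)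
      trv_of_one h1 h2 }

end Vale.Agent.P281Z.Rg
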