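import Vale.Agent.P281Z.Rg.Sk
import Vale.Agent.P281Z.Lv.Rel
import Vale.Agent.P281Z.Nt.Hyp

/-!
# P281Z, block REG: the residues on the strata are monomials
-/

open scoped Manifold ContDiff Topology
open Set Filter
open Vale.Agent.P272.K Vale.Agent.P285.H281.FD Vale.Agent.P284.H608.K
open Vale.Agent.P277Z (Hol at_chart hol_const)
open Vale.Agent.P277Z.Slc (Ind LEq Snc St)
open Vale.Agent.P281Z.Ha Vale.Agent.P281Z.Lg Vale.Agent.P281Z.Pk Vale.Agent.P281Z.Lv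

noncomputable section

namespace Vale.Agent.P281Z.Rg

namespace Srr

variable {w d m : ℕ} {B : Bs w} {C : Et B d 1} [LinearOrder C.κ] {A : Dt C}
  {lam : B.l.ι → A.L.B → C.X.X → ℂ} {i : B.l.ι} {z : (A.L.Y (w + m)).X}
  {c : (A.L.K (w + m)).I} {l : C.κ}

theorem opn (A : Dt C) (i : B.l.ι) : IsOpen (C.g ⁻¹' (B.l.U i \ C.Q)) :=
  ((A.lg.base.lb.isOpen i).sdiff A.lg.thin.closed).preimage A.lg.hol.cont

theorem polar (h : l ∈ A.L.lab z) : A.a l = -1 ∧ 0 < A.b l := (pol_mem.1 (A.geo.mem _ z l h)).1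

theorem pr_ne (hz : z ∈ off (tr A m)) (hc : z ∈ ((A.L.K (w + m)).e c).source) :
    A.L.pr c ((A.L.K (w + m)).e c z) ≠ 0 :=
  Finset.prod_ne_zero_iff.2 fun l _ h => by
    by_cases hl : l ∈ A.L.lab z
    · rw [(A.geo.co _ c z hc l).1 hl] at h
      exact one_ne_zero h
    · exact hz l ⟨hl, (pol_mem.1 (((A.geo.co _ c z hc l).2 hl).2 h)).2⟩

theorem not_oth (hz : z ∈ off (tr A m)) : A.L.pt z ∉ oth C.G A.a A.b :=
  fun ⟨l, h1, h2⟩ => hz l ⟨fun h => h1 (polar h), h2⟩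

open Classical in
/-- the numerator is a monomial in the equations of the divisors which are not polar -/
theorem num (hM : Mon C A.a) (hl : A.Lam lam) {x : C.X.X} (hx : C.g x ∈ B.l.U i) {β : A.L.B}
    (hβ : x ∈ A.L.U β) {ζ : C.κ → C.X.X → ℂ} (hζ : ∀ l, LEq (w + d) (C.G l) x (ζ l)) :
    ∃ b, Hol (w + d) b x ∧ b x ≠ 0 ∧ ∀ᶠ y in 𝓝 x, C.g y ∈ B.l.U i \ C.Q →
      y ∉ oth C.G A.a A.b → lam i β y =
        b y * ∏ l, if A.a l = -1 ∧ 0 < A.b l then 1 else ζ l y ^ A.a l := by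
  have he := at_chart (n := w + d) x
  obtain ⟨b, b1, b2, b3⟩ := hM i _ x hx he ζ hζ
  obtain ⟨u, u1, u2, u3⟩ := A.geo.frU β _ x hβ he
    (fun l => if A.a l = -1 ∧ 0 < A.b l then ζ l else fun _ => 1) fun l => by
      simp only [pol]
      split_ifs
      · exact hζ l
      · exact ⟨.of_forall fun _ => iff_of_false one_ne_zero id, fun e he =>
          ⟨analyticAt_const, fun k => (one_ne_zero k).elim⟩⟩
  have hU := (A.geo.lb.isOpen β).eventually_mem hβ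
  have k : ∀ᶠ y in 𝓝 x, y ∈ off C.G → C.g y ∈ B.l.U i \ C.Q → lam i β y =
      b y / u y * ∏ l, if A.a l = -1 ∧ 0 < A.b l then 1 else ζ l y ^ A.a l := by
    filter_upwards [b3, u3, hU, at_near he, u1.ne_near u2, eventually_all.2 fun l => (hζ l).1]
      with y k1 k2 k3 k4 k5 k6 h1 h2
    rw [div_mul_eq_mul_div, eq_div_iff k5, ← k2 fun l h => h1 l (pol_mem.1 h).2, ← mul_assoc,
      ← hl.eq i β _ y h1 h2 k3 k4, k1 ⟨⟨h2.1, A.lg.pre y h1⟩, h1⟩, mul_assoc,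
      ← Finset.prod_mul_distrib]
    refine congrArg _ (Finset.prod_congr rfl fun l _ => ?_)
    split_ifs with h
    · rw [h.1, zpow_neg_one, inv_mul_cancel₀ (mt (k6 l).1 (h1 l))]
    · exact mul_one _
  refine ⟨fun y => b y / u y, b1.div u1 u2, div_ne_zero b2 u2, ?_⟩
  filter_upwards [k.eventually_nhds, hU, (b1.div u1 u2).near,
    eventually_all.2 fun l => (hζ l).near] with y k1 k2 k3 k4 h1 h2
  refine tendsto_nhds_unique_of_frequently_eq ((hl.hol i).hol β y h1 k2).cont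
    (k3.cont.tendsto.mul (tendsto_finsetProd (f := fun l y =>
      if A.a l = -1 ∧ 0 < A.b l then 1 else ζ l y ^ A.a l) _ fun l _ => ?_))
    (((mem_closure_iff_frequently.1 ((Hyp.of_snc A.lg.snc).dense y)).and_eventually
      (k1.and ((opn A i).eventually_mem h1))).mono fun _ h => h.2.1 h.1 h.2.2)
  split_ifs with h
  · exact tendsto_const_nhds
  · exact ((k4 l).hol.zpow (fun e => h2 ⟨l, h, (k4 l).mem.1 e⟩) _).cont

open Classical in
theorem fac (hS : Sg A m) (hc : z ∈ ((A.L.K (w + m)).e c).source) {ζ : C.X.X → ℂ}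
    (hζ : LEq (w + d) (C.G l) (A.L.pt z) ζ) {ξ : (A.L.Y (w + m)).X → ℂ}
    (hξ : LEq (w + m) (tr A m l) z ξ) : ∃ v, Hol (w + m) v z ∧ v z ≠ 0 ∧ ∀ᶠ y in 𝓝 z,
      (if A.a l = -1 ∧ 0 < A.b l then 1 else ζ (A.L.pt y) ^ A.a l) /
        zt (A.L.co c l) ((A.L.K (w + m)).e c y) = v y * ξ y ^ A.a l := by
  have he := at_e A.L hc
  have hθ : Hol (w + m) (fun y => zt (A.L.co c l) ((A.L.K (w + m)).e c y)) z :=
    (anV_chart he).cmp (zt_an _ _)
  by_cases h1 : l ∈ A.L.lab z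
  · have h2 : ξ z ≠ 0 := fun h => (hξ.mem.1 h).1 h1
    refine ⟨fun y => (ξ y ^ A.a l)⁻¹, (hξ.hol.zpow h2 _).inv (zpow_ne_zero _ h2),
      inv_ne_zero (zpow_ne_zero _ h2), (hξ.hol.ne_near h2).mono fun y h => ?_⟩
    rw [if_pos (polar h1), (A.geo.co _ c z hc l).1 h1, inv_mul_cancel₀ (zpow_ne_zero _ h)]
    exact div_one _
  by_cases h2 : A.a l = -1 ∧ 0 < A.b l
  · obtain ⟨v, v1, v2, v3⟩ := leq_unit (P277Z.Slc.LEq.of_chart (G := tr A m l) (by
      filter_upwards [hS.lab z, at_near he] with y k1 k2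
      have k3 : l ∉ A.L.lab y := k1 ▸ h1
      rw [← (A.geo.co _ c y k2.2 l).2 k3, pol_mem]
      exact ⟨fun k => ⟨k3, k.2⟩, fun k => ⟨h2, k.2⟩⟩) hθ he (by
        cases A.L.co c l with
        | none => exact fun k => (one_ne_zero k).elim
        | some k => exact fun _ => ((ind_chart he).2 _ he).ne_zero k)) hξ
    refine ⟨v, v1, v2, ?_⟩
    filter_upwards [v3, v1.ne_near v2] with y k1 k2
    rw [if_pos h2, h2.1, k1, zpow_neg_one, mul_inv, mul_inv_cancel_left₀ k2, one_div]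
  · obtain ⟨v, v1, v2, v3⟩ := leq_unit hξ (hS.leq z l ζ h1 hζ)
    have h3 : zt (A.L.co c l) ((A.L.K (w + m)).e c z) ≠ 0 := fun k =>
      h2 (pol_mem.1 (((A.geo.co _ c z hc l).2 h1).2 k)).1
    refine ⟨_, (v1.zpow v2 (A.a l)).div hθ h3, div_ne_zero (zpow_ne_zero _ v2) h3,
      v3.mono fun y k => ?_⟩
    rw [if_neg h2, k, mul_zpow, mul_div_right_comm]

end Srr

open Srr in
/-- **SR** -/
theorem sr_of : SR := by
  intro w d B C _ A hM lam hl m hS
  refine ⟨fun i c x hx hc => A.geo.tz_hol (opn A i) (hl.hol i) hx.1 (ix_src _ x)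
    (pr_ne hx.2 (ix_src _ x)) hc, fun i c c' x _ => tz_chg, fun i j c x hi hj _ => ?_,
    fun i e z hz he ξ hξ => ?_⟩
  · rw [pow_one]
    exact tz_smul fun β => hl.chg i j β _ hi.1 hj.1.1
  have hc := ix_src (A.L.K (w + m)) z
  have h1 := at_e A.L hc
  obtain ⟨ζ, hζ, -⟩ := A.lg.snc (A.L.pt z)
  obtain ⟨b, b1, b2, b3⟩ := num hM hl hz (A.L.mem _ _ z hc) hζ
  choose v v1 v2 v3 using fun l => fac hS hc (hζ l) (hξ l)
  refine ⟨fun y => (jacM e ((A.L.K (w + m)).e ((A.L.K (w + m)).ix z)) y).det *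
    (A.L.ε ((A.L.K (w + m)).ix z) * (b (A.L.pt y) * ∏ l, v l y)),
    (Mg.jd_hol (co_chart he.1) (co_chart h1.1) he.2 hc).mul ((hol_const _ z).mul
      (((A.geo.hol _).hol b1).mul (Hol.prod _ fun l _ => v1 l))),
    mul_ne_zero (Mg.jd_ne (co_chart he.1) (co_chart h1.1) he.2 hc) (mul_ne_zero (A.L.eps_ne _)
      (mul_ne_zero b2 (Finset.prod_ne_zero_iff.2 fun l _ => v2 l))), ?_⟩
  filter_upwards [(A.geo.hol _).cont.continuousAt.eventually b3, eventually_all.2 v3, at_near he,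
    at_near h1] with y k1 k2 k3 k4 hy
  refine (tz_chg k3 k4).trans ?_
  rw [tz_eq A.geo.tri (hl.hol i).chg hy.1 k4.2, k1 hy.1 (not_oth hy.2), pow_one, mul_div_assoc,
    mul_div_assoc, Lad.pr, ← Finset.prod_div_distrib]
  simp only [k2, Finset.prod_mul_distrib, mul_assoc]

end Vale.Agent.P281Z.Rg
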