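import Vale.Agent.P281Z.Rg.Tak
import Vale.Agent.P281Z.Ha.Den
import Vale.Agent.P281Z.Ha.WclC

/-!
# P281Z, block REG: TAK without hypotheses
-/

namespace Vale.Agent.P281Z.Rg

theorem wcc : WCC := fun _ _ _ _ _ _ _ K _ => Ha.wclC (Ha.api K) (Ha.tr K)

theorem denc : DENC := fun _ _ _ _ _ _ _ K => Ha.denC K

/-- **TAK** -/
theorem tak : TAK := tak_of wcc denc

end Vale.Agent.P281Z.Rg
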