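import Vale.Agent.P281Z.Rg.Sk
import Vale.Agent.P281Z.Lv.Main

/-!
# P281Z, block REG: the leading coefficient
-/

open scoped Topology ComplexOrder
open Set Filter MeasureTheory
open Vale.Agent.P281Z.Ha Vale.Agent.P281Z.Lg Vale.Agent.P281Z.Pk Vale.Agent.P281Z.Lv

noncomputable section

namespace Vale.Agent.P281Z.Rg

namespace Tpf

theorem lt_zero {J : ℝ → ℝ} {k k' a a' : ℝ} (h : Tendsto (fun ε : ℝ => ε ^ k * J ε) (𝓝[>] 0) (𝓝 a))
    (h' : Tendsto (fun ε : ℝ => ε ^ k' * J ε) (𝓝[>] 0) (𝓝 a')) (hk : k < k') : a' = 0 := by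
  have h3 : Tendsto (fun ε : ℝ => ε ^ (k' - k)) (𝓝[>] 0) (𝓝 0) := by
    simpa [Real.zero_rpow (sub_pos.2 hk).ne'] using (Real.continuousAt_rpow_const 0 (k' - k)
      (.inr (sub_pos.2 hk).le)).tendsto.mono_left nhdsWithin_le_nhds
  refine (tendsto_nhds_unique h' ((h3.mul h).congr' (eventually_mem_nhdsWithin.mono
    fun ε hε => ?_))).trans (zero_mul a)
  simp only [← mul_assoc, ← Real.rpow_add hε, sub_add_cancel]

/-- two positive limits are equal -/
theorem lim_eq {J : ℝ → ℝ} {k k' a a' : ℝ} (h : Tendsto (fun ε : ℝ => ε ^ k * J ε) (𝓝[>] 0) (𝓝 a))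
    (h' : Tendsto (fun ε : ℝ => ε ^ k' * J ε) (𝓝[>] 0) (𝓝 a')) (ha : 0 < a) (ha' : 0 < a') :
    a = a' := by
  rcases lt_trichotomy k k' with hk | rfl | hk
  · exact (ha'.ne' (lt_zero h h' hk)).elim
  · exact tendsto_nhds_unique h h'
  · exact (ha.ne' (lt_zero h' h hk)).elim

theorem one_le {κ : Type} [Fintype κ] {r : κ → ℝ} (h : ∀ l, 1 ≤ r l) (I : Finset κ) :
    1 ≤ (∏ l, r l) * wI r I := by
  classical
  rw [← Finset.prod_mul_prod_compl I, mul_right_comm, wI, ← Finset.prod_mul_distrib]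
  refine one_le_mul_of_one_le_of_one_le (Finset.one_le_prod fun l _ => ?_)
    (Finset.one_le_prod fun l _ => h l)
  rw [mul_div_cancel₀ _ (one_pos.trans_le (h l)).ne']
  linarith [Real.pi_gt_three]

end Tpf

open Tpf in
/-- **TPF** -/
theorem tpf_of (H : In) : TPF := by
  intro w d B C _ A lam hl i y h1 h2 S e k hD k₀ h h0 ht
  have P := fi H hD S h2 (O := B.l.U i \ C.Q) ⟨h1, h2⟩ (hl.hol i)
  have M := (H.muf _ _ _ S.F e).1 _ (lc_lab H S.F e (wI A.r)) (res S e (lam i))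
  have k1 : Tendsto (fun ε : ℝ => ε ^ (k : ℝ) * (C.J i ε y).toReal) (𝓝[>] 0) (𝓝 (pS _
      (mu _ (fun z => wI A.r (S.F.lab z)) (res S e (lam i))) (res S e (lam i))).re) := by
    refine ((Complex.continuous_re.tendsto _).comp
      (asy H hD S h2 (P.sec d) (P.sec d)).2).congr' ?_
    filter_upwards [self_mem_nhdsWithin] with ε hε
    rw [Function.comp, ← ((H.nut w d B C A lam hl i y h1 h2 S _ (P.sec d)).2 ε hε).2,
      ← Complex.ofReal_mul, Complex.ofReal_re, Real.rpow_natCast]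
  have k2 := (H.int _ _ _).intS _ _ (M.1 P.h0.top) P.h0.top (M.2.1 (Rn.hl_sm P.h0.hol))
    (Rn.hl_sm P.h0.hol)
  have k3 : ∀ z, dS _ (mu _ (fun z => wI A.r (S.F.lab z)) (res S e (lam i))) (res S e (lam i)) z =
      wI A.r (S.F.lab z) * dS _ (res S e (lam i)) (res S e (lam i)) z := fun z => by
    simp only [dS, mu, ((S.F.K e).e _).left_inv (ix_src (S.F.K e) z), mul_assoc, mul_left_comm]
  have k4 : ∀ z, 0 ≤ (dS _ (res S e (lam i)) (res S e (lam i)) z).re := fun z =>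
    (Complex.nonneg_iff.1 (It.dS_nn _ z)).1
  rw [lim_eq ht k1 h0 (M.2.2.2 (fun _ => wI_pos A.r_pos _) P.h0 (res_ne H hD hl S ⟨h1, h2⟩)), pS,
    ← RCLike.re_to_complex, ← integral_re k2, ofReal_integral_eq_lintegral_ofReal k2.re
      (.of_forall fun z => by
        simp only [k3, RCLike.re_to_complex, Complex.re_ofReal_mul]
        exact mul_nonneg (wI_pos A.r_pos _).le (k4 z)),
    ← lintegral_const_mul' _ _ ENNReal.ofReal_ne_top]
  refine lintegral_mono fun z => ?_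
  rw [k3, RCLike.re_to_complex, Complex.re_ofReal_mul, ← ENNReal.ofReal_mul
    (Finset.prod_nonneg fun l _ => (A.r_pos l).le), ← mul_assoc, ← ofReal_norm,
    ← Complex.re_eq_norm.2 (It.dS_nn _ z)]
  exact ENNReal.ofReal_le_ofReal
    (le_mul_of_one_le_left (k4 z) (one_le (fun l => le_max_right _ _) _))

end Vale.Agent.P281Z.Rg
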