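import Vale.Agent.P281Z.Rg.Asm
import Vale.Agent.P281Z.Rg.Brm
import Vale.Agent.P281Z.Rg.Lm
import Vale.Agent.P281Z.Rg.Orf
import Vale.Agent.P281Z.Rg.Ort
import Vale.Agent.P281Z.Rg.Prj
import Vale.Agent.P281Z.Rg.Se
import Vale.Agent.P281Z.Rg.Sg
import Vale.Agent.P281Z.Rg.Sr
import Vale.Agent.P281Z.Rg.TakAll
import Vale.Agent.P281Z.Rg.Tf
import Vale.Agent.P281Z.Rg.Tpf
import Vale.Agent.P281Z.Gr.Crc
import Vale.Agent.P281Z.Ha.Loc
import Vale.Agent.P281Z.Lv.Asy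

/-!
# P281Z, block REG
-/

namespace Vale.Agent.P281Z.Rg

theorem tf : TF := tf_of tak Ha.stLoc Gr.crc

theorem reg_in (H : Lv.In) : Pk.REG :=
  reg_of H.lad H.pol H.ord H.lam H.dep monc sg sr_of se_of hor
    (ort_of (orf_of H.asy Lv.stAsyG H.num H.nut H.b2w H.b1 H.gl) brm brh H.fib H.pol H.hyp H.num)
    (top_of (tpf_of H) brm H.fib H.pol) (prj_of tf lm) (beg_of lm) (end_of lm)

end Vale.Agent.P281Z.Rg
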