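import Vale.Agent.P281Z.Rg.Sk
import Vale.Agent.P281Z.Nt.Hyp

/-!
# P281Z, block REG: the assembly
-/

open scoped Manifold ContDiff Topology ENNReal
open Set Filter MeasureTheory
open Vale.Agent.P272.K Vale.Agent.P285.H281.FD Vale.Agent.P284.H608.K
open Vale.Agent.P277Z (Hol at_chart)
open Vale.Agent.P277Z.Slc (Ind LEq Snc St)
open Vale.Agent.P281Z.Lg Vale.Agent.P281Z.Pk Vale.Agent.P281Z.Lv

set_option linter.unusedSectionVars false

noncomputable section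

namespace Vale.Agent.P281Z.Rg

section mn

variable {n : ℕ} {X κ : Type} [TopologicalSpace X] [ChartedSpace (Cm n) X]
  [IsManifold 𝓘(ℂ, Cm n) ω X] [Fintype κ] {G : κ → Set X} {S S' : Set X} {c c' : κ → ℤ}
  {u u' : X → ℂ} {x : X} {ζ : κ → X → ℂ}

theorem mn_of_one (hζ : ∀ l, LEq n (G l) x (ζ l)) {b : X → ℂ} (hb : Hol n b x) (h0 : b x ≠ 0)
    (h : ∀ᶠ y in 𝓝 x, y ∈ S → u y = b y * ∏ l, ζ l y ^ c l) : Mn n G S c u x := fun ζ' hζ' => by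
  choose w k1 k2 k3 using fun l => leq_unit (hζ' l) (hζ l)
  refine ⟨fun y => b y * ∏ l, w l y ^ c l, hb.mul (Hol.prod _ fun l _ => (k1 l).zpow (k2 l) _),
    mul_ne_zero h0 (Finset.prod_ne_zero_iff.2 fun l _ => zpow_ne_zero _ (k2 l)), ?_⟩
  filter_upwards [h, eventually_all.2 k3] with y m1 m2 m3
  simp only [m1 m3, m2, mul_zpow, Finset.prod_mul_distrib, mul_assoc]

theorem Mn.near (hG : Hyp n G) (h : Mn n G S c u x) : ∀ᶠ y in 𝓝 x, Mn n G S c u y := by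
  obtain ⟨ζ, hζ⟩ := hG x
  obtain ⟨b, h1, h2, h3⟩ := h ζ hζ
  filter_upwards [eventually_all.2 fun l => (hζ l).near, h1.near, h1.ne_near h2,
    h3.eventually_nhds] with y k1 k2 k3 k4 using mn_of_one k1 k2 k3 k4

theorem Mn.tw (h : Mn n G univ c u x) (h' : Mn n G S c' u' x) (j : ℤ) (hS : S' ⊆ S)
    (hS' : S' ⊆ off G) : Mn n G S' (fun l => c' l + j * c l) (fun y => u y ^ j * u' y) x :=
  fun ζ hζ => by
  obtain ⟨b, h1, h2, h3⟩ := h ζ hζ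
  obtain ⟨b', k1, k2, k3⟩ := h' ζ hζ
  refine ⟨fun y => b y ^ j * b' y, (h1.zpow h2 _).mul k1, mul_ne_zero (zpow_ne_zero _ h2) k2, ?_⟩
  filter_upwards [h3, k3, off_iff hζ] with y m1 m2 m3 m4
  rw [m1 trivial, m2 (hS m4), mul_zpow, ← Finset.prod_zpow, mul_mul_mul_comm,
    ← Finset.prod_mul_distrib]
  refine congrArg _ (Finset.prod_congr rfl fun l _ => ?_)
  rw [zpow_add₀ (m3.1 (hS' m4) l), mul_comm j, zpow_mul, mul_comm]

theorem Mn.nonneg (hG : Snc n G) (h : Mn n G S c u x) (hS : ∀ᶠ y in 𝓝 x, y ∈ off G → y ∈ S)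
    (hl : Li n (S.indicator fun y => ‖u y‖ₑ ^ 2) x) {l : κ} (hx : x ∈ G l) : 0 ≤ c l := by
  obtain ⟨ζ, hζ⟩ := Hyp.of_snc hG x
  obtain ⟨b, h1, h2, h3⟩ := h ζ hζ
  have k := (ordAt_of_one (k := c) (u := u) hζ h1 (P277Z.nz_of_ne h2)
    ((h3.and hS).mono fun y m m' => m.1 (m.2 m')) fun l hl =>
      Frequently.filter_mono (by simpa using ⟨hl, h2⟩) (pure_le_nhds x)).of_li (γ := 0) hG hl hζ
    two_pos (hS.mono fun y m m' => by simp [indicator_of_mem (m m')]) hx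
  have k' : (-1 : ℝ) < c l := by
    simp only [Pi.zero_apply] at k
    linarith
  have : (-1 : ℤ) < c l := by exact_mod_cast k'
  omega

theorem Mn.zero (hG : Hyp n G) {α : κ → ℕ} (h : Mn n G univ (fun l => α l) u x) {l : κ}
    (hf : ∃ᶠ y in 𝓝 x, y ∈ G l ∧ u y ≠ 0) : α l = 0 := by
  obtain ⟨ζ, hζ⟩ := hG x
  obtain ⟨b, -, -, h3⟩ := h ζ hζ
  obtain ⟨y, ⟨k1, k2⟩, k3, k4⟩ := (hf.and_eventually (h3.and (hζ l).1)).exists
  by_contra k
  exact k2 ((k3 trivial).trans (mul_eq_zero_of_right _ (Finset.prod_eq_zero (Finset.mem_univ l)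
    (by rw [k4.2 k1, zpow_natCast, zero_pow k]))))

theorem Mn.ne (hG : Hyp n G) (h : Mn n G univ c u x) : ∀ᶠ y in 𝓝 x, y ∈ off G → u y ≠ 0 := by
  obtain ⟨ζ, hζ⟩ := hG x
  obtain ⟨b, h1, h2, h3⟩ := h ζ hζ
  filter_upwards [h3, h1.ne_near h2, off_iff hζ] with y k1 k2 k3 k4
  rw [k1 trivial]
  exact mul_ne_zero k2 (Finset.prod_ne_zero_iff.2 fun l _ => zpow_ne_zero _ (k3.1 k4 l))

end mn

section main

variable {w d : ℕ} {B : Bs w} {C : Et B d 1} [LinearOrder C.κ] (A : Dt C)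

/-- the horizontal polar divisors -/
def Hp (l : C.κ) : Prop := (A.a l = -1 ∧ 0 < A.b l) ∧ ∃ x ∈ C.G l, C.g x ∉ C.Q

/-- `τ^j t` has no vertical pole at `x` -/
def Gd (τ : B.W.X → ℂ) (j : ℤ) (x : C.X.X) : Prop :=
  ∃ α : C.κ → ℕ, Mn (w + d) C.G univ (fun l => α l) (fun y => τ (C.g y)) x ∧
    ∀ l, ¬ Hp A l → x ∈ C.G l → 0 ≤ A.a l + j * α l

/-- the local situation on the base -/
structure Bl (i : B.l.ι) (O : Set B.W.X) (τ : B.W.X → ℂ) : Prop where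
  opn : IsOpen O
  sub : O ⊆ B.l.U i
  hol : ∀ y ∈ O, Hol w τ y
  iff : ∀ y ∈ O, y ∈ C.Q ↔ τ y = 0
  zer : ∀ y ∈ O, τ y = 0 → y ∈ C.Q₀
  hor : ∀ l, Hp A l → ∀ x ∈ C.G l, ∃ᶠ y in 𝓝 x, y ∈ C.G l ∧ C.g y ∉ C.Q
  or : A.Or

variable {A} {i : B.l.ι} {O : Set B.W.X} {τ : B.W.X → ℂ} {j : ℤ} {m : ℕ} {α : C.κ → ℕ}
  {lam : B.l.ι → A.L.B → C.X.X → ℂ} {x : C.X.X} {z : (A.L.Y (w + m)).X} {l : C.κ}

theorem gd_open : IsOpen {x | Gd A τ j x} := isOpen_iff_mem_nhds.2 fun x ⟨α, h1, h2⟩ => by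
  have hG := Hyp.of_snc A.lg.snc
  have h3 : ∀ l, ∀ᶠ y in 𝓝 x, y ∈ C.G l → x ∈ C.G l := fun l => by
    by_cases k : x ∈ C.G l
    · exact .of_forall fun _ _ => k
    · exact ((hG.closed l).isOpen_compl.eventually_mem k).mono fun _ a b => (a b).elim
  filter_upwards [h1.near hG, eventually_all.2 h3] with y k1 k2
  exact ⟨α, k1, fun l a b => h2 l a (k2 l b)⟩

theorem lab_pol (hl : l ∈ A.L.lab z) : (A.a l = -1 ∧ 0 < A.b l) ∧ A.L.pt z ∈ C.G l := by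
  have h := A.geo.mem _ z l hl
  unfold pol at h
  split_ifs at h with k
  · exact ⟨k, h⟩
  · exact h.elim

theorem pol_eq (h : Hp A l) : pol C.G A.a A.b l = C.G l := if_pos h.1

theorem Bl.ex (h : Bl A i O τ) (hx : C.g x ∈ O) :
    ∃ α : C.κ → ℕ, Mn (w + d) C.G univ (fun l => α l) (fun y => τ (C.g y)) x := by
  obtain ⟨ζ, hζ⟩ := Hyp.of_snc A.lg.snc x
  obtain ⟨α, b, h1, h2, h3⟩ := Nt.Hp.mon A.lg.snc hζ (A.lg.hol.hol (h.hol _ hx))
    ((A.lg.hol.cont.continuousAt.eventually (h.opn.eventually_mem hx)).mono fun y k k' k'' =>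
      A.lg.pre y k' (h.zer _ k k''))
  exact ⟨α, mn_of_one hζ h1 h2 (h3.mono fun y k _ => by simpa using k)⟩

theorem Bl.zero (h : Bl A i O τ) (hx : C.g x ∈ O)
    (hα : Mn (w + d) C.G univ (fun l => α l) (fun y => τ (C.g y)) x) (hl : Hp A l)
    (hx' : x ∈ C.G l) : α l = 0 :=
  hα.zero (Hyp.of_snc A.lg.snc) (((h.hor l hl x hx').and_eventually
    (A.lg.hol.cont.continuousAt.eventually (h.opn.eventually_mem hx))).mono fun _ k =>
      ⟨k.1.1, mt (h.iff _ k.2).2 k.1.2⟩)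

theorem Bl.gd (h : Bl A i O τ) (hx : C.g x ∈ O) (h0 : τ (C.g x) ≠ 0) : Gd A τ j x :=
  have hQ := mt (h.iff _ hx).1 h0
  ⟨0, fun _ _ => ⟨_, A.lg.hol.hol (h.hol _ hx), h0, by simp⟩, fun l k k' => by
    simpa using (h.or l x k' hQ).resolve_left fun a => k ⟨a, x, k', hQ⟩⟩

/-- restriction to a horizontal stratum -/
theorem Bl.res (h : Bl A i O τ) (hS : Sg A m) (hz : gm A.L C.g m z ∈ O)
    (hl : ∀ l ∈ A.L.lab z, Hp A l)
    (hα : Mn (w + d) C.G univ (fun l => α l) (fun y => τ (C.g y)) (A.L.pt z)) :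
    Mn (w + m) (tr A m) univ (fun l => α l) (fun y => τ (gm A.L C.g m y)) z := by
  obtain ⟨ζ, hζ⟩ := Hyp.of_snc A.lg.snc (A.L.pt z)
  obtain ⟨b, h1, h2, h3⟩ := hα ζ hζ
  refine mn_of_one (ζ := fun l y => if l ∈ A.L.lab z then 1 else ζ l (A.L.pt y)) (fun l => ?_)
    ((A.geo.hol _).hol h1) h2 (((A.geo.hol _).cont.continuousAt.eventually h3).mono fun y k _ =>
      (k trivial).trans (congrArg _ (Finset.prod_congr rfl fun l _ => ?_)))
  · by_cases k : l ∈ A.L.lab z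
    · simpa only [if_pos k] using hS.one z l k
    · simpa only [if_neg k] using hS.leq z l _ k (hζ l)
  · by_cases k : l ∈ A.L.lab z
    · simp [h.zero hz hα (hl l k) (lab_pol k).2]
    · rw [if_neg k]

theorem Bl.loc (h : Bl A i O τ) (hS : Sg A m) (hR : Sr A lam m) (hz : gm A.L C.g m z ∈ O)
    (hl : ∀ l ∈ A.L.lab z, Hp A l)
    (hα : Mn (w + d) C.G univ (fun l => α l) (fun y => τ (C.g y)) (A.L.pt z)) :
    (∀ᶠ y in 𝓝 z, y ∈ off (tr A m) → y ∈ oq (se A lam m) i ∧ τ (gm A.L C.g m y) ≠ 0) ∧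
      ∀ ch, At ch z → Mn (w + m) (tr A m) (oq (se A lam m) i) (fun l => A.a l + j * α l)
        (tt (se A lam m) i τ j ch) z := by
  have h1 := h.res hS hz hl hα
  refine ⟨?_, fun ch hc => h1.tw (hR.mon i ch z (h.sub hz) hc) j (fun _ k => k.1) fun _ k => k.1.2⟩
  filter_upwards [h1.ne (.of_snc hS.snc), hS.hol.cont.continuousAt.eventually
    (h.opn.eventually_mem hz)] with y k1 k2 k3
  have k4 := mt (h.iff _ k2).1 (k1 k3)
  exact ⟨⟨⟨⟨h.sub k2, k4⟩, k3⟩, k4⟩, k1 k3⟩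

theorem Bl.of_li (h : Bl A i O τ) (hS : Sg A m) (hR : Sr A lam m) (hz : gm A.L C.g m z ∈ O)
    (hl : ∀ l ∈ A.L.lab z, Hp A l) (hi : Li (w + m) ((oq (se A lam m) i).indicator fun y =>
      ‖tt (se A lam m) i τ j (chartAt (Cm (w + m)) z) y‖ₑ ^ 2) z) : Gd A τ j (A.L.pt z) := by
  obtain ⟨α, hα⟩ := h.ex (x := A.L.pt z) hz
  obtain ⟨h1, h2⟩ := h.loc (j := j) hS hR hz hl hα
  exact ⟨α, hα, fun l k k' => (h2 _ (at_chart z)).nonneg hS.snc (h1.mono fun _ a b => (a b).1) hi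
    (l := l) ⟨fun a => k (hl l a), k'⟩⟩

theorem Bl.step (hP : PRJ) (h : Bl A i O τ) {y : B.W.X} (hy : y ∈ O) (hS : Sg A (m + 1))
    (hR : Sr A lam (m + 1)) (hE : (se A lam (m + 1)).Geo) (hO : Ort (se A lam (m + 1)))
    (ih : ∀ z : (A.L.Y (w + m)).X, gm A.L C.g m z = y → (∀ l ∈ A.L.lab z, Hp A l) →
      Gd A τ j (A.L.pt z)) (z : (A.L.Y (w + (m + 1))).X) (hz : gm A.L C.g (m + 1) z = y)
    (hl : ∀ l ∈ A.L.lab z, Hp A l) : Gd A τ j (A.L.pt z) := by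
  let T : Set (A.L.Y (w + (m + 1))).X := {z | ∀ l ∈ A.L.lab z, Hp A l}
  let D : Set (A.L.Y (w + (m + 1))).X := T ∩ ⋃ l ∈ {l | Hp A l}, tr A (m + 1) l
  have hT : IsClopen T := ⟨⟨isOpen_iff_mem_nhds.2 fun z k => (hS.lab z).mono fun z' a b =>
    k fun l c => b l (a ▸ c)⟩, isOpen_iff_mem_nhds.2 fun z k =>
      (hS.lab z).mono fun z' a l c => k l (a ▸ c)⟩
  have hD : ∀ z ∈ D, gm A.L C.g (m + 1) z = y → Gd A τ j (A.L.pt z) := fun z ⟨k1, k2⟩ k3 => by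
    obtain ⟨l, a, b, c⟩ := mem_iUnion₂.1 k2
    obtain ⟨z', e1, e2⟩ := A.geo.srj (w + m) (A.L.pt z) (insert l (A.L.lab z)) (fun l' k => by
      rcases Finset.mem_insert.1 k with rfl | k
      · rwa [pol_eq a]
      · exact A.geo.mem _ z l' k) (by
        have := A.L.card _ z
        rw [Finset.card_insert_of_notMem b]
        omega)
    rw [← e1]
    refine ih z' ((congrArg C.g e1).trans k3) fun l' k => ?_
    rcases Finset.mem_insert.1 (e2 ▸ k) with rfl | k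
    · exact a
    · exact k1 l' k
  by_cases hz' : z ∈ D
  · exact hD z hz' hz
  let P : Set (A.L.Y (w + (m + 1))).X := (T ∩ A.L.pt ⁻¹' {x | Gd A τ j x})ᶜ
  have hP' : ∀ z ∉ P, z ∈ T ∧ Gd A τ j (A.L.pt z) := fun z k => not_not.1 k
  refine h.of_li hS hR (hz ▸ hy) hl (hP _ _ B _ hE hO i y O τ j P D ⟨hS.kah, hS.hol, h.opn, hy,
    h.hol, fun z k k' => ?_, (hT.2.inter (gd_open.preimage (A.geo.hol _).cont)).isClosed_compl,
    fun z k k' => by_contra fun k'' => k ⟨fun l a => ⟨(lab_pol a).1, _, (lab_pol a).2,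
      mt (h.iff _ k').1 k''⟩, h.gd k' k''⟩⟩ h.sub h.iff (hT.1.inter
      ((toFinite _).isClosed_biUnion fun l _ => (Hyp.of_snc hS.snc).closed l))
    (fun z k k' => ?_) (fun z k k' k'' => k ⟨k'.1, hD z k' k''⟩) (fun z k k' => ?_) z hz' hz)
  · obtain ⟨a, α, b, -⟩ := hP' z k
    exact (((Hyp.of_snc hS.snc).freq z).and_eventually (h.loc (j := j) hS hR k' a b).1).mono
      fun _ c => (c.2 c.1).2
  · obtain ⟨l, -, b⟩ := mem_iUnion₂.1 k.2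
    exact k' l b
  · obtain ⟨a, α, b, c⟩ := hP' z k
    obtain ⟨h1, h2⟩ := h.loc (j := j) hS hR k' a b
    refine ⟨h1.mono fun _ p q => (p q).1, _, h2, fun l p => ?_⟩
    by_cases q : Hp A l
    · exact ⟨by simp [q.1.1, h.zero k' b q p.2], fun r => (r ⟨a, mem_iUnion₂.2 ⟨l, q, p⟩⟩).elim⟩
    · exact ⟨by linarith [c l q p.2], fun _ => c l q p.2⟩

end main

/-- **REG** -/
theorem reg_of (hL : Lv.StLad) (hP : StPol) (hO : StOrd) (hA : StLam) (hD : StDep) (h1 : MONC)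
    (h2 : SG) (h3 : SR) (h4 : SE) (h5 : HOR) (h6 : ORT) (h7 : TOP) (h8 : PRJ) (h9 : BEG)
    (h10 : END) : REG := by
  intro w d B C hC k h hN i y hy H τ j _ hτ hQ hI
  let : LinearOrder C.κ := .lift' (Fintype.equivFin C.κ) (Fintype.equivFin C.κ).injective
  obtain ⟨a, ha⟩ := hC.ord
  obtain ⟨b, hb⟩ := hC.cpg
  obtain ⟨L, fr, hG⟩ := hL _ _ C.X (pol C.G a b) hC.kah (hP _ _ C.X B.W C.g _ C.G a b hC.snc).1
  let A : Dt C := ⟨a, b, L, fr, hC, ha, hb, hG⟩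
  have o := hO _ _ _ _ A
  obtain ⟨lam, hl⟩ := hA _ _ _ _ A o
  obtain ⟨e, k', hd⟩ := hD _ _ _ _ A
  obtain ⟨O, k1, k2, k3⟩ := eventually_nhds_iff.1
    ((lb_near hC.base.lb hy).and (hτ.hol.near.and (hτ.1.and hQ)))
  have hB : Bl A i O τ := ⟨k2, fun z hz => (k1 z hz).1, fun z hz => (k1 z hz).2.1, fun z hz =>
    ⟨fun p => (k1 z hz).2.2.1.2 ((k1 z hz).2.2.2.1 p), fun p =>
      hC.sub ((k1 z hz).2.2.2.2 ((k1 z hz).2.2.1.1 p))⟩,
    fun z hz p => (k1 z hz).2.2.2.2 ((k1 z hz).2.2.1.1 p),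
    fun l p => h5 _ _ _ C hC.toGeo l (hC.conn l).2 p.2, o⟩
  have hM := h1 _ _ _ _ A
  have hS := h2 _ _ _ _ A
  have hR := fun m => h3 _ _ _ _ A hM lam hl m (hS m)
  have hE : ∀ m, e ≤ m → m ≤ d → (se A lam m).Geo := fun m p q =>
    h4 _ _ _ _ A lam m (hS m) (hR m) ((hd.fam m p q).elim fun _ r => r.onto)
  have he : e ≤ d := by have := hd.add; omega
  have key : ∀ m, e ≤ m → m ≤ d → ∀ z : (A.L.Y (w + m)).X, gm A.L C.g m z = y →
      (∀ l ∈ A.L.lab z, Hp A l) → Gd A τ j (A.L.pt z) := fun m p => by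
    induction m, p using Nat.le_induction with
    | base =>
      intro q z hz hz'
      obtain ⟨K, r1, r2⟩ := h7 _ _ _ _ A lam hl e k' hd (hE e le_rfl q) k h hN
      exact hB.of_li (hS e) (hR e) (hz ▸ k3) hz'
        (h9 _ _ _ _ (hE e le_rfl q) i y hy τ j (h i) K hτ.hol r1 (r2 i) hI z hz)
    | succ m p ih =>
      intro q
      have r := hE _ (Nat.le_succ_of_le p) q
      exact hB.step h8 k3 (hS _) (hR _) r (h6 _ _ _ _ A lam hl e k' hd _ (Nat.lt_succ_of_le p) q r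
        (hR _).mon) (ih (Nat.le_of_succ_le q))
  refine h10 _ _ _ C hC.toGeo b hb i y hy τ j hτ.hol fun x hx => ?_
  obtain ⟨z, rfl, hz⟩ := hG.srj (w + d) x ∅ (fun _ p => by simp at p) (by simp)
  obtain ⟨α, p, q⟩ := key d he le_rfl z hx (by simp [show A.L.lab z = ∅ from hz])
  refine ⟨_, p.tw (hM i _ _ (hx ▸ hy) (at_chart _)) j (fun _ r => r.1) fun _ r => r.1.2,
    fun l r => ?_⟩
  by_cases s : Hp A l
  · exact .inl ⟨by simp [s.1.1, hB.zero (hx ▸ k3) p s r], s.1.2⟩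
  · exact .inr (q l s r)

end Vale.Agent.P281Z.Rg
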