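import Vale.Agent.P281Z.Rg.Defs
import Vale.Agent.P281Z.Lv.Sk
import Vale.Agent.P281Z.Sc.L2

/-!
# P281Z, block REG: the strata as families of forms, statements
-/

open scoped Manifold ContDiff Topology ENNReal
open Set Filter MeasureTheory
open Vale.Agent.P272.K Vale.Agent.P285.H281.FD Vale.Agent.P284.H608.K
open Vale.Agent.P277Z (Hol)
open Vale.Agent.P277Z.Slc (Ind LEq Snc St)
open Vale.Agent.P277Z.Hir (Cpb)
open Vale.Agent.P281Z.Ha Vale.Agent.P281Z.Lg Vale.Agent.P281Z.Pk Vale.Agent.P281Z.Lv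

noncomputable section

namespace Vale.Agent.P281Z.Rg

/-- on `S`, `u` is a unit times a monomial near `x` -/
def Mn (n : ℕ) {X κ : Type} [TopologicalSpace X] [ChartedSpace (Cm n) X] [Fintype κ]
    (G : κ → Set X) (S : Set X) (c : κ → ℤ) (u : X → ℂ) (x : X) : Prop :=
  ∀ ζ : κ → X → ℂ, (∀ l, LEq n (G l) x (ζ l)) → ∃ b, Hol n b x ∧ b x ≠ 0 ∧
    ∀ᶠ y in 𝓝 x, y ∈ S → u y = b y * ∏ l, ζ l y ^ c l

section et

variable {w e : ℕ} {B : Bs w} (E : Et B e 1)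

/-- the set which carries the measure -/
def oq (i : B.l.ι) : Set E.X.X := E.O i ∩ E.g ⁻¹' E.Qᶜ

/-- the forms are monomials -/
def Mon (a : E.κ → ℤ) : Prop :=
  ∀ i c x, E.g x ∈ B.l.U i → At c x → Mn (w + e) E.G (E.O i) a (E.t i c) x

/-- the quotient `H / t i` -/
def qt (i : B.l.ι) (H : Chart (w + e) E.X.X → E.X.X → ℂ) (x : E.X.X) : ℂ :=
  H (chartAt (Cm (w + e)) x) x / E.t i (chartAt (Cm (w + e)) x) x

/-- the form `τ^j t i` -/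
def tt (i : B.l.ι) (τ : B.W.X → ℂ) (j : ℤ) (c : Chart (w + e) E.X.X) (x : E.X.X) : ℂ :=
  τ (E.g x) ^ j * E.t i c x

/-- on the fibres, `t i` is orthogonal to the holomorphic forms -/
def Ort : Prop := ∀ i, ∀ y ∈ B.l.U i, y ∉ E.Q → ∀ O H, IsOpen O → E.g ⁻¹' {y} ⊆ O →
  HoT (w + e) O H → Integrable (qt E i H) (E.ν i y) ∧
    Integrable (fun x => ‖qt E i H x‖ ^ 2) (E.ν i y) ∧ ∫ x, qt E i H x ∂E.ν i y = 0

/-- `F |t i|^2` is integrable near `x` -/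
def Lx (i : B.l.ι) (F : E.X.X → ℝ≥0∞) (x : E.X.X) : Prop :=
  Li (w + e) ((oq E i).indicator fun y => F y * ‖E.t i (chartAt (Cm (w + e)) x) y‖ₑ ^ 2) x

end et

/-- a statement on top forms -/
def ForT (P : ∀ (w e : ℕ) (B : Bs w), Et B e 1 → Prop) : Prop :=
  ∀ (w e : ℕ) (B : Bs w) (E : Et B e 1), E.Geo → P w e B E

/-- **LM**: local integrability on the base and on the total space -/
def LM : Prop := ForT fun _ _ B E => ∀ i, ∀ y ∈ B.l.U i, ∀ F : E.X.X → ℝ≥0∞, Measurable F →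
  ((∀ x, E.g x = y → Lx E i F x) ↔ LI (B.ch i) E.Qᶜ (fun z => ∫⁻ x, F x ∂E.ν i z) y)

/-- **PRJ**: the principal part is square integrable -/
def PRJ : Prop := ForT fun w e B E => Ort E → ∀ i y₀ O τ (j : ℤ) (P D : Set E.X.X),
  Sit E.X B.W E.g y₀ O τ P → O ⊆ B.l.U i → (∀ y ∈ O, y ∈ E.Q ↔ τ y = 0) → IsClosed D →
  (∀ x ∈ D, x ∉ off E.G) → (∀ x ∈ P, x ∈ D → E.g x ≠ y₀) →
  (∀ x ∉ P, E.g x ∈ O → (∀ᶠ y in 𝓝 x, y ∈ off E.G → y ∈ oq E i) ∧ ∃ c : E.κ → ℤ,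
    (∀ ch, At ch x → Mn (w + e) E.G (oq E i) c (tt E i τ j ch) x) ∧
      ∀ l, x ∈ E.G l → -1 ≤ c l ∧ (x ∉ D → 0 ≤ c l)) →
  ∀ x ∉ D, E.g x = y₀ → Li (w + e) ((oq E i).indicator fun y =>
    ‖tt E i τ j (chartAt (Cm (w + e)) x) y‖ₑ ^ 2) x

/-- **END**: forms with simple poles are integrable against the weights -/
def END : Prop := ForT fun w e B E => ∀ b : E.κ → ℕ,
  (∀ x (ζ : E.κ → E.X.X → ℂ), (∀ l, LEq (w + e) (E.G l) x (ζ l)) →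
    Cpb (𝓝 x) E.ρ fun y => ∏ l, ‖ζ l y‖ ^ b l) → ∀ i, ∀ y ∈ B.l.U i, ∀ τ (j : ℤ), Hol w τ y →
  (∀ x, E.g x = y → ∃ c : E.κ → ℤ,
    Mn (w + e) E.G (oq E i) c (tt E i τ j (chartAt (Cm (w + e)) x)) x ∧
      ∀ l, x ∈ E.G l → (c l = -1 ∧ 0 < b l) ∨ 0 ≤ c l) → ∀ ε : ℝ, 0 < ε →
  LI (B.ch i) E.Qᶜ (fun z => E.J i ε z ^ 1 * ENNReal.ofReal (‖τ z‖ ^ (2 * j))) y

/-- **BEG**: finite mass -/
def BEG : Prop := ForT fun w e B E => ∀ i, ∀ y ∈ B.l.U i, ∀ τ (j : ℤ) (h : B.W.X → ℝ) (K : ℝ≥0∞),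
  Hol w τ y → K ≠ ⊤ → (∀ z ∈ B.l.U i, z ∉ E.Q → E.ν i z univ ≤ K * ENNReal.ofReal (h z)) →
  LI (B.ch i) E.Qᶜ (fun z => ENNReal.ofReal (h z ^ 1 * ‖τ z‖ ^ (2 * j))) y →
  ∀ x, E.g x = y → Li (w + e) ((oq E i).indicator fun y =>
    ‖tt E i τ j (chartAt (Cm (w + e)) x) y‖ₑ ^ 2) x

/-- **HOR**: horizontal components -/
def HOR : Prop := ForT fun _ _ _ E => ∀ l, IsPreconnected (E.G l) → (∃ x ∈ E.G l, E.g x ∉ E.Q) →
  ∀ x ∈ E.G l, ∃ᶠ y in 𝓝 x, y ∈ E.G l ∧ E.g y ∉ E.Q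

/-! ### The strata -/

section str

variable {w d : ℕ} {B : Bs w} {C : Et B d 1} [LinearOrder C.κ] (A : Dt C)

/-- the traces of the divisors on the strata -/
def tr (m : ℕ) (l : C.κ) : Set (A.L.Y (w + m)).X := {z | l ∉ A.L.lab z ∧ A.L.pt z ∈ C.G l}

/-- the residues on the strata -/
@[reducible] def se (lam : B.l.ι → A.L.B → C.X.X → ℂ) (m : ℕ) : Et B m 1 :=
  ⟨A.L.Y (w + m), gm A.L C.g m, C.κ, tr A m, fun i => tz A.L (w + m) (lam i), C.Q, C.Q, fun _ => 1⟩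

/-- the geometry of the strata -/
structure Sg (m : ℕ) : Prop where
  kah : (A.L.Y (w + m)).Kah
  hol : HolM (w + m) w (gm A.L C.g m)
  lab : ∀ z : (A.L.Y (w + m)).X, ∀ᶠ z' in 𝓝 z, A.L.lab z' = A.L.lab z
  leq : ∀ (z : (A.L.Y (w + m)).X) l ζ, l ∉ A.L.lab z → LEq (w + d) (C.G l) (A.L.pt z) ζ →
    LEq (w + m) (tr A m l) z fun z' => ζ (A.L.pt z')
  one : ∀ (z : (A.L.Y (w + m)).X), ∀ l ∈ A.L.lab z, LEq (w + m) (tr A m l) z fun _ => 1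
  snc : Snc (w + m) (tr A m)
  reg : ∀ y ∉ C.Q, RegAt (w + m) w (gm A.L C.g m) (tr A m) y

variable (lam : B.l.ι → A.L.B → C.X.X → ℂ)

/-- the residues -/
structure Sr (m : ℕ) : Prop where
  thol : ∀ i c, ∀ x ∈ (se A lam m).O i, At c x → Hol (w + m) ((se A lam m).t i c) x
  tchg : ∀ i c c', ∀ x ∈ (se A lam m).O i, At c x → At c' x →
    (se A lam m).t i c x = (jacM c c' x).det ^ 1 * (se A lam m).t i c' x
  lchg : ∀ i j c, ∀ x ∈ (se A lam m).O i, x ∈ (se A lam m).O j → At c x →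
    (se A lam m).t j c x = B.l.g i j ((se A lam m).g x) *
      (jacM (B.ch i) (B.ch j) ((se A lam m).g x)).det ^ 1 * (se A lam m).t i c x
  mon : Mon (se A lam m) A.a

variable {A} {i : B.l.ι} {y : B.W.X} (S : Slc A.L C.g (B.ch i) y)

/-- the residue on the strata of a fibre -/
def rf (m : ℕ) : Sc (S.F.K m) := S.F.fm (S.F.nm m (S.rb (lam i)))

/-- the value in the preferred chart -/
def vl {m : ℕ} {M : Type} [TopologicalSpace M] [MeasurableSpace M] (K : KA m M) (a : Sc K) (z : M) :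
    ℂ := a (K.ix z) (K.e (K.ix z) z)

end str

/-- **MONC** -/
def MONC : Prop := ForA fun _ _ _ C _ A => Mon C A.a

/-- **SG** -/
def SG : Prop := ForA fun _ _ _ _ _ A => ∀ m, Sg A m

/-- **SR** -/
def SR : Prop := ForA fun _ _ _ C _ A => Mon C A.a → ∀ lam, A.Lam lam → ∀ m, Sg A m → Sr A lam m

/-- **SE** -/
def SE : Prop := ForA fun _ _ _ C _ A => ∀ lam m, Sg A m → Sr A lam m →
  (∀ y ∉ C.Q, ∃ z, gm A.L C.g m z = y) → (se A lam m).Geo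

/-- a statement on the ladders of the fibres -/
def ForS (P : ∀ (w d : ℕ) (B : Bs w) (C : Et B d 1) [LinearOrder C.κ] (A : Dt C)
    (_ : B.l.ι → A.L.B → C.X.X → ℂ) (i : B.l.ι) (y : B.W.X), Slc A.L C.g (B.ch i) y → Prop) : Prop :=
  ForA fun w d B C _ A => ∀ lam, A.Lam lam → ∀ i, ∀ y ∈ B.l.U i, y ∉ C.Q →
    ∀ S : Slc A.L C.g (B.ch i) y, P w d B C A lam i y S

/-- **ORF**: orthogonality on the strata of a fibre which are not the deepest -/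
def ORF : Prop := ForS fun _ d _ _ _ A lam _ _ S => ∀ e k, A.Dep e k → ∀ m, e < m → m ≤ d →
  ∀ a, H0 (S.F.K m) a → pS _ a (rf lam S m) = 0

/-- **TPF**: the leading coefficient -/
def TPF : Prop := ForS fun _ _ _ C _ A lam i y S => ∀ e k, A.Dep e k → ∀ k₀ h : ℝ, 0 < h →
  Tendsto (fun ε : ℝ => ε ^ k₀ * (C.J i ε y).toReal) (𝓝[>] 0) (𝓝 h) →
  ∫⁻ z, ‖dS _ (rf lam S e) (rf lam S e) z‖ₑ ∂(S.F.K e).μ ≤
    ENNReal.ofReal (∏ l, A.r l) * ENNReal.ofReal h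

/-- **BRM**: the fibre measure of the residue -/
def BRM : Prop := ForS fun _ _ _ _ _ A lam i y S => ∀ m, (se A lam m).Geo →
  ∀ f, Measurable f → ∫⁻ x, f x ∂(se A lam m).ν i y =
    ∫⁻ z, f (S.j z) * ‖dS _ (rf lam S m) (rf lam S m) z‖ₑ ∂(S.F.K m).μ

/-- **BRH**: restriction of holomorphic forms to a fibre -/
def BRH : Prop := ForS fun w _ _ _ _ A lam i y S => ∀ m, (se A lam m).Geo → Mon (se A lam m) A.a →
  ∀ O H, IsOpen O → (se A lam m).g ⁻¹' {y} ⊆ O → HoT (w + m) O H → ∃ a, H0 (S.F.K m) a ∧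
    ∀ z, S.j z ∈ off (tr A m) → vl _ a z = qt (se A lam m) i H (S.j z) * vl _ (rf lam S m) z

/-- **ORT** -/
def ORT : Prop := ForA fun _ d _ _ _ A => ∀ lam, A.Lam lam → ∀ e k, A.Dep e k → ∀ m, e < m →
  m ≤ d → (se A lam m).Geo → Mon (se A lam m) A.a → Ort (se A lam m)

/-- **TOP** -/
def TOP : Prop := ForA fun _ _ B C _ A => ∀ lam, A.Lam lam → ∀ e k, A.Dep e k →
  (se A lam e).Geo → ∀ k₀ h, C.Nm C.Q k₀ h → ∃ K : ℝ≥0∞, K ≠ ⊤ ∧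
    ∀ i, ∀ y ∈ B.l.U i, y ∉ C.Q → (se A lam e).ν i y univ ≤ K * ENNReal.ofReal (h i y)

end Vale.Agent.P281Z.Rg
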