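import Vale.Agent.P281Z.Rg.TakA
import Vale.Agent.P281Z.Mf.Api
import Vale.Agent.P277Z.Van.Ka
import Vale.Agent.P277Z.Van.Sub
import Vale.Agent.P284.H286.K.Meas

/-!
# P281Z, block REG: the argument of Takegoshi on a tube
-/

open scoped Manifold ContDiff Topology ComplexConjugate ComplexOrder ENNReal Matrix
open Filter Set MeasureTheory

noncomputable section

namespace Vale.Agent.P281Z.Rg

open Vale.Agent.P272.K Vale.Agent.P284.H608.K Vale.Agent.P281Z.Ha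
open Vale.Agent.P277Z.Van (KahOn SmOn PSDOn)
open Vale.Agent.P277Z.Van.Ka (sub sub_symm sub_near tr_near jac_sub det_tr det_pos tgt)
open Vale.Agent.P301.H599 (ddc)
open Vale.Agent.P284.H650 (gg)

namespace Tk

section ka

variable {n : ℕ} {X : Type} [TopologicalSpace X] [ChartedSpace (Cm n) X]
  [IsManifold 𝓘(ℂ, Cm n) ω X] {Ω : Set X} [MeasurableSpace Ω] [BorelSpace Ω]
  {w : Chart n X → Cm n → Matrix (Fin n) (Fin n) ℂ} {u : X → ℝ}

/-- the data of the engine -/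
structure Tb (Ω : Set X) [MeasurableSpace Ω] (w : Chart n X → Cm n → Matrix (Fin n) (Fin n) ℂ)
    (u : X → ℝ) where
  op : IsOpen Ω
  x₀ : Ω
  μ : Measure Ω
  kah : KahOn Ω w
  sm : SmOn (d := n) Ω u
  vol : ∀ (e : atlas (Cm n) X) (f : Ω → ℝ≥0∞), Measurable f →
    (∀ x, x ∉ (sub e.1 isOpen_univ op x₀).source → f x = 0) →
    ∫⁻ x, f x ∂μ = ∫⁻ z in (sub e.1 isOpen_univ op x₀).target,
      f ((sub e.1 isOpen_univ op x₀).symm z) * ENNReal.ofReal (w e.1 z).det.re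

theorem tb [T2Space X] [SigmaCompactSpace Ω] (op : IsOpen Ω) (x₀ : Ω) (kah : KahOn Ω w)
    (sm : SmOn (d := n) Ω u) : Nonempty (Tb Ω w u) := by
  obtain ⟨μ, hμ⟩ := P284.H286.K.measStmt n Ω (atlas (Cm n) X)
    (fun e => sub e.1 isOpen_univ op x₀) (fun e z => (w e.1 z).det.re)
    (fun x => ⟨⟨chartAt (Cm n) x.1, chart_mem_atlas _ _⟩, mem_chart_source _ _, trivial⟩)
    (fun i j z hz hj => (tgt hz.1 (transition (At.of_target i.2 hz.1)
      ⟨j.2, sub_symm hz ▸ hj.1⟩).analyticAt).congr (tr_near hz).symm)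
    (fun i z hz => (tgt (P := ContinuousAt fun z => (w i.1 z).det.re) hz.1
      (Complex.continuous_re.continuousAt.comp (INT.contDiffAt_det (k := ∞) (kah.smooth _ _
        (At.of_target i.2 hz.1) hz.2.2)).continuousAt)).continuousWithinAt)
    (fun i z hz => det_pos (tgt (P := fun z => (w i.1 z).PosDef) hz.1
      (kah.posDef _ _ (At.of_target i.2 hz.1) hz.2.2)))
    fun i j x hi hj => by
      rw [jac_sub hi, ← det_tr]
      exact congrArg (fun A => (Matrix.det A).re) (kah.change _ _ _ ⟨i.2, hi.1⟩ ⟨j.2, hj.1⟩ x.2)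
  exact ⟨⟨op, x₀, μ, kah, sm, hμ⟩⟩

omit [IsManifold 𝓘(ℂ, Cm n) ω X] [MeasurableSpace Ω] [BorelSpace Ω] in
theorem nr {e : Chart n X} {op : IsOpen Ω} {x₀ : Ω} {z : Cm n}
    (hz : z ∈ (sub e isOpen_univ op x₀).target) {α : Type} (g : X → α) :
    (fun y => g ((sub e isOpen_univ op x₀).symm y).1) =ᶠ[𝓝 z] fun y => g (e.symm y) :=
  (sub_near hz).mono fun _ hy => congrArg g hy

/-- the framed charts of the trivial bundle -/
@[reducible] def Tb.ka (D : Tb Ω w u) : KA n Ω where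
  I := atlas (Cm n) X
  e i := sub i.1 isOpen_univ D.op D.x₀
  w i := w i.1
  φ i z := u ((sub i.1 isOpen_univ D.op D.x₀).symm z).1
  a _ _ _ := 1
  μ := D.μ
  cover x := ⟨⟨chartAt (Cm n) x.1, chart_mem_atlas _ _⟩, mem_chart_source _ _, trivial⟩
  wsm i z hz j k := tgt hz.1 (D.kah.smooth _ _ (At.of_target i.2 hz.1) hz.2.2 j k)
  wpos i z hz := tgt (P := fun z => (w i.1 z).PosDef) hz.1
    (D.kah.posDef _ _ (At.of_target i.2 hz.1) hz.2.2)
  wcl i z hz j k l := tgt (P := fun z => dz l _ z = dz j _ z) hz.1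
    (D.kah.closed _ _ (At.of_target i.2 hz.1) hz.2.2 j k l)
  φsm i z hz := (tgt hz.1 (D.sm _ _ (At.of_target i.2 hz.1) hz.2.2)).congr_of_eventuallyEq (nr hz u)
  hol i j z hz hj := (tgt hz.1 (transition (At.of_target i.2 hz.1)
    ⟨j.2, sub_symm hz ▸ hj.1⟩).analyticAt).congr (tr_near hz).symm
  wch i j x hi hj := by
    rw [jac_sub hi]
    exact D.kah.change _ _ _ ⟨i.2, hi.1⟩ ⟨j.2, hj.1⟩ x.2
  ahol _ _ _ _ _ := analyticAt_const
  coc _ _ _ _ _ _ _ := (mul_one _).symm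
  aself _ _ _ := rfl
  φch i j x hi hj := by
    rw [OpenPartialHomeomorph.left_inv _ hi, OpenPartialHomeomorph.left_inv _ hj, norm_one, one_pow,
      mul_one]
  hμ := D.vol

omit [MeasurableSpace Ω] [BorelSpace Ω] in
/-- the complete metric -/
theorem cpl (hw : KahOn Ω w) (hu : SmOn (d := n) Ω u) (hp : PSDOn Ω (ddc (d := n) u)) {c : ℝ}
    (hc : ∀ x ∈ Ω, u x < c) : ∃ w', KahOn Ω w' ∧ (PSDOn Ω fun e z => w' e z - w e z) ∧
      SmOn (d := n) Ω (fun x => Real.log c - Real.log (c - u x)) ∧ PSDOn Ω fun e z => w' e z -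
        gg (fun y => Real.log c - Real.log (c - u (e.symm y)))
          (fun y => Real.log c - Real.log (c - u (e.symm y))) z := by
  have d1 : ∀ t < c, HasDerivAt (fun t => Real.log c - Real.log (c - t)) (c - t)⁻¹ t :=
    fun t ht => ((((hasDerivAt_id t).const_sub c).log (sub_pos.2 ht).ne').const_sub _).congr_deriv
      (by rw [neg_div, neg_neg, one_div]; rfl)
  have s1 := hu.comp (f := fun t => Real.log c - Real.log (c - t)) fun x hx =>
    contDiffAt_const.sub ((contDiffAt_const.sub contDiffAt_id).log (sub_pos.2 (hc x hx)).ne')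
  have e1 := fun (e : Chart n X) x (hx : At e x) hm => P277Z.Van.ddc_chain hu hx hm
    ((gt_mem_nhds (hc x hm)).mono d1) (f₂ := (c - u x)⁻¹ * (c - u x)⁻¹)
    ((((hasDerivAt_id (u x)).const_sub c).inv (sub_pos.2 (hc x hm)).ne').congr_deriv
      (by rw [neg_neg, one_div, sq, mul_inv]; rfl))
  have p1 := fun (e : Chart n X) x (hx : At e x) hm =>
    P285Z.psd_smul (hp e x hx hm) (inv_pos.2 (sub_pos.2 (hc x hm))).le
  have p2 : PSDOn Ω (ddc (d := n) fun x => Real.log c - Real.log (c - u x)) := fun e x hx hm =>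
    e1 e x hx hm ▸ (p1 e x hx hm).add
      (P285Z.psd_smul (P277Z.Van.gm_on hu e x hx hm) (mul_self_nonneg _))
  refine ⟨_, hw.add_ddc s1 p2, fun e x hx hm => by
    simpa only [add_sub_cancel_left] using p2 e x hx hm, s1, fun e x hx hm => ?_⟩
  have hd := (hu.two hx hm).differentiableAt (by norm_num)
  have h1 := d1 (u (e.symm (e x))) (by rw [hx.left_inv]; exact hc x hm)
  have e2 : gg (fun y => Real.log c - Real.log (c - u (e.symm y)))
      (fun y => Real.log c - Real.log (c - u (e.symm y))) (e x) =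
      (((c - u x)⁻¹ * (c - u x)⁻¹ : ℝ) : ℂ) • P285Z.Ch.gmX u e (e x) := by
    ext j k
    change dz j _ _ * dzb k _ _ = _ * (dz j _ _ * dzb k _ _)
    rw [C2.dz_comp_real j h1 hd, C2.dzb_comp_real k h1 hd, mul_mul_mul_comm,
      ← Complex.ofReal_mul, hx.left_inv]
  beta_reduce
  rw [e2, e1 e x hx hm, ← add_assoc, add_sub_cancel_right]
  exact (hw.posDef e x hx hm).posSemidef.add (p1 e x hx hm)

end ka

variable {r : ℕ} {X : Type} [TopologicalSpace X] [ChartedSpace (Cm (r + 1)) X]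
  [IsManifold 𝓘(ℂ, Cm (r + 1)) ω X] {Ω V P N : Set X} [MeasurableSpace Ω] [BorelSpace Ω]
  {w w' : Chart (r + 1) X → Cm (r + 1) → Matrix (Fin (r + 1)) (Fin (r + 1)) ℂ} {u : X → ℝ}
  {a : Chart (r + 1) X → X → ℂ}

/-- the coefficients of a top form -/
def Tb.sc (D : Tb Ω w' u) (a : Chart (r + 1) X → X → ℂ) : Sc D.ka := fun i z => a i.1 (i.1.symm z)

omit [IsManifold 𝓘(ℂ, Cm (r + 1)) ω X] in
theorem dz0 (h : HoT (r + 1) (N \ P) a) {e : Chart (r + 1) X} {x : X} (he : At e x) (hN : x ∈ N)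
    (hP : x ∉ P) (b : Fin (r + 1)) : dzb b (fun z => a e (e.symm z)) (e x) = 0 :=
  dzb_an (h.hol x ⟨hN, hP⟩ e he e he) b

omit [BorelSpace Ω] in
theorem Tb.dt (D : Tb Ω w' u) (hV : Ω ⊆ V) (hP : IsClosed P) (hN : IsOpen N) (h1 : P ∩ V ⊆ N)
    (h2 : SmT (r + 1) (V \ P) a) (h3 : HoT (r + 1) (N \ P) a) :
    Dt (K := D.ka) (Subtype.val ⁻¹' P) (D.sc a) where
  cls := hP.preimage continuous_subtype_val
  chg i j x hi hj hx := by
    rw [ta, jac_sub hi, one_mul]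
    change a _ (i.1.symm (i.1 x.1)) = _ * a _ (j.1.symm (j.1 x.1))
    rw [i.1.left_inv hi.1, j.1.left_inv hj.1]
    exact h2.chg _ _ _ ⟨hV x.2, hx⟩ ⟨i.2, hi.1⟩ ⟨j.2, hj.1⟩
  sm i z hz h := tgt hz.1 (h2.sm _ _ ⟨hV hz.2.2, fun k => h (by
    rwa [mem_preimage, sub_symm hz])⟩ (At.of_target i.2 hz.1))
  hol x hx := (continuous_subtype_val.continuousAt.eventually
    (hN.mem_nhds (h1 ⟨hx, hV x.2⟩))).mono fun y hy h i hi b => dz0 h3 ⟨i.2, hi.1⟩ hy h b

theorem Tb.fin (D : Tb Ω w' u) (hw : IsHermitian w) (hw' : PSDOn Ω fun e z => w' e z - w e z)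
    (hu : ∀ x, 0 ≤ u x) {L : Set X} (hL : IsCompact L) (hΩ : Ω ⊆ L) (hV : L ⊆ V) (hP : IsClosed P)
    (hN : IsOpen N) (h1 : P ∩ V ⊆ N) (h2 : SmT (r + 1) (V \ P) a) (h3 : HoT (r + 1) (N \ P) a) :
    D.ka.nl (tV D.ka (sh D.ka (vv (Subtype.val ⁻¹' P) (D.sc a)))) < ⊤ := by
  have h4 := (D.dt (hΩ.trans hV) hP hN h1 h2 h3).cl
  have q0 : ∀ A : Matrix (Fin (r + 1)) (Fin (r + 1)) ℂ, qi A (fun _ => 0) = 0 := fun A => by
    simp [qi]
  refine lt_of_eq_of_lt ?_ (hL.induction_on (p := fun S : Set X => ∫⁻ x in Subtype.val ⁻¹' S,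
    de (vv (K := D.ka) (Subtype.val ⁻¹' P) (D.sc a)) x ∂D.μ < ⊤) (by simp)
    (fun s t hst ht => (lintegral_mono_set (preimage_mono hst)).trans_lt ht)
    (fun s t hs ht => (lintegral_union_le _ _ _).trans_lt (ENNReal.add_lt_top.2 ⟨hs, ht⟩))
    fun x hx => ?_)
  · rw [eq_univ_of_forall (s := Subtype.val ⁻¹' L) fun x : Ω => hΩ x.2, Measure.restrict_univ]
    rfl
  have he : At (chartAt (Cm (r + 1)) x) x := ⟨chart_mem_atlas _ _, mem_chart_source _ _⟩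
  generalize chartAt (Cm (r + 1)) x = e at he
  obtain ⟨A, A0, hA⟩ : ∃ A : ℝ, 0 ≤ A ∧ ∀ᶠ z in 𝓝 (e x), e.symm z ∉ P →
      qi (w e z) (fun b => dzb b (fun z => a e (e.symm z)) z) ≤ A := by
    by_cases h : x ∈ P
    · refine ⟨0, le_rfl, ?_⟩
      filter_upwards [at_ev he (hN.eventually_mem (h1 ⟨h, hV hx⟩)),
        e.open_target.mem_nhds he.mem_target] with z k1 k2 k3
      have k4 := dz0 h3 (At.of_target he.1 k2) k1 k3
      rw [e.right_inv k2] at k4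
      simp only [k4, q0, le_refl]
    · have h5 := qi_cont (hw.smooth e x he) (hw.posDef e x he) (contDiffAt_pi.2 fun b =>
        C2.contDiffAt_dzb b (h2.sm e x ⟨hV hx, h⟩ he) le_rfl)
      exact ⟨_, add_nonneg (qi_nn (hw.posDef e x he) _) zero_le_one,
        (h5.eventually (gt_mem_nhds (lt_add_one _))).mono fun z k _ => k.le⟩
  obtain ⟨ρ, ρ0, hρ⟩ := Metric.eventually_nhds_iff_ball.1 hA
  have hO := e.isOpen_inter_preimage (Metric.isOpen_ball (x := e x) (ε := ρ))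
  refine ⟨_, mem_nhdsWithin_of_mem_nhds (hO.mem_nhds ⟨he.2, Metric.mem_ball_self ρ0⟩), ?_⟩
  refine lt_of_eq_of_lt (lint (K := D.ka) (i := ⟨e, he.1⟩) h4.cov (cl_sm h4)
    (hO.preimage continuous_subtype_val).measurableSet fun y hy => ⟨hy.1, trivial⟩)
    (lt_of_le_of_lt ((setLIntegral_mono' (OpenPartialHomeomorph.open_target _).measurableSet
      (g := (Metric.ball (e x) ρ).indicator fun _ => ENNReal.ofReal A) fun z hz => ?_).trans
      (setLIntegral_le_lintegral _ _)) ?_)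
  · refine indicator_apply_le' (fun h => ?_) fun _ => zero_le
    have k1 : e ((D.ka.e ⟨e, he.1⟩).symm z).1 ∈ Metric.ball (e x) ρ := h.2
    rw [sub_symm hz, e.right_inv hz.1] at k1
    have k2 := At.of_target he.1 hz.1
    rw [indicator_of_mem k1]
    refine ENNReal.ofReal_le_ofReal ((mul_le_of_le_one_left (qi_nn (D.ka.wpos _ z hz) _)
      (Real.exp_le_one_iff.2 (neg_nonpos.2 (hu _)))).trans ?_)
    unfold vv
    by_cases k3 : e.symm z ∈ P
    · simp only [mem_preimage, sub_symm hz, k3, not_true, and_false, if_false, q0, A0]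
    · simp only [mem_preimage, sub_symm hz, k3, hz, not_false_eq_true, and_self, if_true]
      exact (qi_mono (tgt (P := fun z => (w e z).PosDef) hz.1 (hw.posDef e _ k2))
        (D.ka.wpos _ z hz) (tgt (P := fun z => (w' e z - w e z).PosSemidef) hz.1
          (hw' e _ k2 hz.2.2)) _).trans (hρ z k1 k3)
  · rw [lintegral_indicator measurableSet_ball, setLIntegral_const]
    exact ENNReal.mul_lt_top ENNReal.ofReal_lt_top measure_ball_lt_top

omit [BorelSpace Ω] in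
theorem Tb.out (D : Tb Ω w' u) (hV : Ω ⊆ V) (h2 : SmT (r + 1) (V \ P) a)
    (h3 : HoT (r + 1) (N \ P) a) {s : ℕ → Sc D.ka} (hs : ∀ k, Top D.ka (s k) ∧ Sm D.ka (s k))
    (hl : ∀ i C, IsCompact C → C ⊆ (D.ka.e i).target → Tendsto (fun k => ∫⁻ z in C, ∑ b,
      ‖dzb b (s k i) z + vv (Subtype.val ⁻¹' P) (D.sc a) i z b‖ₑ ^ 2) atTop (𝓝 0)) :
    ∃ t : ℕ → Chart (r + 1) X → X → ℂ, (∀ k, SmT (r + 1) Ω (t k)) ∧
      ∀ e ∈ atlas (Cm (r + 1)) X, ∀ K, IsCompact K → K ⊆ e.source ∩ Ω →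
        (K ⊆ Pᶜ → Tendsto (fun k => dq e K fun x => t k e x - a e x) atTop (𝓝 0)) ∧
        (K ⊆ N → Tendsto (fun k => dq e K (t k e)) atTop (𝓝 0)) := by
  classical
  let t : ℕ → Chart (r + 1) X → X → ℂ := fun k e x =>
    if h : e ∈ atlas (Cm (r + 1)) X then -s k ⟨e, h⟩ (e x) else 0
  have m : ∀ {e : Chart (r + 1) X} {x} (he : At e x), x ∈ Ω → e x ∈ (D.ka.e ⟨e, he.1⟩).target :=
    fun he hx => (D.ka.e ⟨_, he.1⟩).map_source (x := ⟨_, hx⟩) ⟨he.2, trivial⟩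
  have ev : ∀ k {e : Chart (r + 1) X} {x} (he : At e x),
      (fun z => t k e (e.symm z)) =ᶠ[𝓝 (e x)] fun z => -s k ⟨e, he.1⟩ z := fun k e x he =>
    (e.open_target.eventually_mem he.mem_target).mono fun z hz => by
      simp only [t, dif_pos he.1, e.right_inv hz]
  have sm : ∀ k {e : Chart (r + 1) X} {x} (he : At e x), x ∈ Ω →
      ContDiffAt ℝ ∞ (fun z => t k e (e.symm z)) (e x) := fun k e x he hx =>
    ((hs k).2 _ _ (m he hx)).neg.congr_of_eventuallyEq (ev k he)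
  have d : ∀ k {e : Chart (r + 1) X} {x} (he : At e x), x ∈ Ω → ∀ b,
      dzb b (fun z => t k e (e.symm z)) (e x) = -dzb b (s k ⟨e, he.1⟩) (e x) := fun k e x he hx b => by
    rw [C2.dzb_congr b (ev k he), C2.dzb_neg]
  refine ⟨t, fun k => ⟨fun e x hx he => sm k he hx, fun e e' x hx he he' => ?_⟩,
    fun e he K hK hKe => ?_⟩
  · have h := (hs k).1.chg ⟨e, he.1⟩ ⟨e', he'.1⟩ ⟨x, hx⟩ ⟨he.2, trivial⟩ ⟨he'.2, trivial⟩
    rw [ta, jac_sub (x := ⟨x, hx⟩) ⟨he.2, mem_univ _⟩, one_mul] at h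
    simp only [t, dif_pos he.1, dif_pos he'.1, mul_neg]
    exact congrArg Neg.neg h
  have hC := hK.image_of_continuousOn (e.continuousOn.mono fun x hx => (hKe hx).1)
  have h4 := hl ⟨e, he⟩ _ hC (image_subset_iff.2 fun x hx => m ⟨he, (hKe hx).1⟩ (hKe hx).2)
  refine ⟨fun h => h4.congr fun k => setLIntegral_congr_fun hC.measurableSet ?_,
    fun h => h4.congr fun k => setLIntegral_congr_fun hC.measurableSet ?_⟩ <;>
    rintro _ ⟨x, hx, rfl⟩ <;> refine Finset.sum_congr rfl fun b _ => ?_ <;>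
    have h5 : At e x := ⟨he, (hKe hx).1⟩ <;> have h6 := m h5 (hKe hx).2 <;>
    simp only [vv, mem_preimage, sub_symm h6, h5.left_inv, h6, true_and]
  · rw [if_pos (show x ∉ P from h hx), C2.dzb_sub b ((sm k h5 (hKe hx).2).differentiableAt (by simp))
      ((h2.sm e x ⟨hV (hKe hx).2, h hx⟩ h5).differentiableAt (by simp)), d k h5 (hKe hx).2,
      ← neg_add', enorm_neg]
    rfl
  · rw [d k h5 (hKe hx).2, enorm_neg]
    split_ifs with h7
    · rw [add_zero]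
    · rw [show dzb b (D.sc a ⟨e, he⟩) (e x) = 0 from dz0 h3 h5 (h hx) h7 b, add_zero]

theorem ns_ball {m : ℕ} {y : Cm m} {ρ : ℝ} (hρ : 0 ≤ ρ) (h : ns y ≤ ρ ^ 2) : ‖y‖ ≤ ρ :=
  (pi_norm_le_iff_of_nonneg hρ).2 fun j => le_of_sq_le_sq ((Finset.single_le_sum
    (f := fun j => ‖y j‖ ^ 2) (fun _ _ => sq_nonneg _) (Finset.mem_univ j)).trans h) hρ

end Tk

open Tk in
/-- **TAK** -/
theorem tak_of (hW : WCC) (hD : DENC) : TAK := by
  intro n m Z W f y₀ O τ P N a S hN h1 h2 h3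
  have s0 : ∀ V : Set Z.X, SmT n V fun _ _ => 0 := fun V =>
    ⟨fun _ _ _ _ => contDiffAt_const, fun _ _ _ _ _ _ => (mul_zero _).symm⟩
  rcases n with _ | r
  · exact ⟨O, _, S.opn, S.mem, subset_rfl, fun _ => s0 _, fun _ _ _ _ _ => by simp [dq]⟩
  have hχ : At (chartAt (Cm m) y₀) y₀ := ⟨chart_mem_atlas _ _, mem_chart_source _ _⟩
  generalize chartAt (Cm m) y₀ = χ at hχ
  obtain ⟨ρ, ρ0, hρ⟩ := Metric.nhds_basis_closedBall.mem_iff.1
    ((χ.isOpen_inter_preimage_symm S.opn).mem_nhds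
      ⟨hχ.mem_target, by rw [mem_preimage, hχ.left_inv]; exact S.mem⟩)
  have c0 : Continuous fun y : Cm m => ns (y - χ y₀) := ns_sm.continuous.comp (by fun_prop)
  have b1 : ∀ b ≤ ρ ^ 2, {y | ns (y - χ y₀) ≤ b} ⊆ Metric.closedBall (χ y₀) ρ := fun b hb y hy =>
    mem_closedBall_iff_norm.2 (ns_ball ρ0.le (hy.trans hb))
  have b2 : ∀ b ≤ ρ ^ 2, IsCompact {x | f x ∈ χ.source ∧ ns (χ (f x) - χ y₀) ≤ b} := fun b hb => by
    refine (congrArg IsCompact ?_).mp ((((isCompact_closedBall _ ρ).of_isClosed_subset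
      (isClosed_le c0 continuous_const) (b1 b hb)).image_of_continuousOn
      (χ.continuousOn_symm.mono fun y hy => (hρ (b1 b hb hy)).1)).isClosed.preimage
      S.hol.cont).isCompact
    ext x
    refine ⟨fun ⟨y, k1, k2⟩ => ?_, fun k => ⟨_, k.2, χ.left_inv k.1⟩⟩
    have k3 := (hρ (b1 b hb k1)).1
    exact ⟨k2 ▸ χ.map_target k3, by rwa [← k2, χ.right_inv k3]⟩
  have b3 : {x | f x ∈ χ.source ∧ ns (χ (f x) - χ y₀) ≤ ρ ^ 2} ⊆ f ⁻¹' O := fun x k => by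
    have := (hρ (b1 _ le_rfl k.2)).2
    rwa [mem_preimage, χ.left_inv k.1] at this
  have hO := χ.isOpen_inter_preimage (isOpen_lt c0 (continuous_const (y := ρ ^ 2)))
  suffices h : ∃ t : ℕ → Chart (r + 1) Z.X → Z.X → ℂ, _ from
    h.elim fun t ht => ⟨_, t, hO, ⟨hχ.2, by simpa [ns] using pow_pos ρ0 2⟩, fun y k => by
      have := (hρ (b1 _ le_rfl (show ns (χ y - χ y₀) ≤ _ from le_of_lt k.2))).2
      rwa [mem_preimage, χ.left_inv k.1] at this, ht⟩
  have op := hO.preimage S.hol.cont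
  set Ω := f ⁻¹' (χ.source ∩ χ ⁻¹' {y | ns (y - χ y₀) < ρ ^ 2})
  have b4 : Ω ⊆ {x | f x ∈ χ.source ∧ ns (χ (f x) - χ y₀) ≤ ρ ^ 2} := fun x k =>
    ⟨k.1, le_of_lt k.2⟩
  rcases Ω.eq_empty_or_nonempty with h | ⟨x₀, hx₀⟩
  · refine ⟨_, fun _ => s0 _, fun e _ K _ hK => ?_⟩
    rw [h, inter_empty, subset_empty_iff] at hK
    simp [hK, dq]
  borelize ↥Ω
  have := op.locallyCompactSpace
  obtain ⟨w, hw⟩ := S.kah
  have hF : ∀ e x, At e x → x ∈ Ω → AnalyticAt ℂ (fun z => χ (f (e.symm z)) - χ y₀) (e x) :=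
    fun e x he hx => ((S.hol.at x).an he ⟨hχ.1, hx.1⟩).sub analyticAt_const
  have hu : SmOn (d := r + 1) Ω fun x => ns (χ (f x) - χ y₀) := fun e x he hx =>
    ns_sm.contDiffAt.comp _ (an_sm (hF e x he hx))
  obtain ⟨w', k1, k2, k3, k4⟩ := cpl (P277Z.Van.kahOn_of hw Ω) hu
    (fun e x he hx => psd_ns (hF e x he hx)) fun x hx => hx.2
  obtain ⟨D⟩ := tb op ⟨x₀, hx₀⟩ k1 hu
  have n0 : ∀ y : Cm m, 0 ≤ ns y := fun y => Finset.sum_nonneg fun _ _ => sq_nonneg _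
  have b5 : ∀ b < ρ ^ 2, IsCompact {x : Ω | ns (χ (f x) - χ y₀) ≤ b} := fun b hb => by
    rw [Subtype.isCompact_iff]
    refine (congrArg IsCompact ?_).mp (b2 b hb.le)
    ext x
    exact ⟨fun k => ⟨⟨x, k.1, k.2.trans_lt hb⟩, k.2, rfl⟩, fun ⟨y, k, e⟩ => e ▸ ⟨y.2.1, k⟩⟩
  have tf : ∀ x : Ω, χ.symm (χ (f x) - χ y₀ + χ y₀) = f x := fun x => by
    rw [sub_add_cancel, χ.left_inv x.2.1]
  refine (core (K := D.ka) hW hD (cut (K := D.ka)
    (η := fun x => Real.log (ρ ^ 2) - Real.log (ρ ^ 2 - ns (χ (f x) - χ y₀)))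
    (fun i z hz => (tgt hz.1 (k3 _ _ (At.of_target i.2 hz.1) hz.2.2)).congr_of_eventuallyEq
      (nr (op := D.op) hz fun x => Real.log (ρ ^ 2) - Real.log (ρ ^ 2 - ns (χ (f x) - χ y₀))))
    (fun x => sub_nonneg.2 (Real.log_le_log (sub_pos.2 x.2.2) (sub_le_self _ (n0 _))))
    (fun b => ?_) fun i z hz => ?_) (D.dt (b4.trans b3) S.cls hN h1 h2 h3)
    (D.fin hw.toIsHermitian k2 (fun _ => n0 _) (b2 _ le_rfl) b4 b3 S.cls hN h1 h2 h3)
    (F := fun x => χ (f x) - χ y₀) (t := fun y => τ (χ.symm (y + χ y₀)))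
    (fun i z hz => (tgt hz.1 (hF _ _ (At.of_target i.2 hz.1) hz.2.2)).congr
      (nr (op := D.op) hz fun x => χ (f x) - χ y₀).symm) (fun _ => rfl)
    (fun x => AnalyticAt.comp (g := fun y => τ (χ.symm y)) (f := fun y => y + χ y₀) (by
      rw [sub_add_cancel]
      exact S.τhol _ (b3 (b4 x.2)) χ ⟨hχ.1, x.2.1⟩) (by fun_prop)) (fun x hx => ?_)
    (fun x hx => (congrArg τ (tf x)).trans (S.sub _ hx (b3 (b4 x.2)))) (fun x => x.2.2)
    b5).elim fun s hs => D.out (b4.trans b3) h2 h3 hs.1 hs.2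
  · refine (congrArg IsCompact ?_).mp (b5 (ρ ^ 2 - Real.exp (Real.log (ρ ^ 2) - b))
      (sub_lt_self _ (Real.exp_pos _)))
    ext x
    rw [mem_ofPred, mem_ofPred, sub_le_comm (a := Real.log _), Real.le_log_iff_exp_le (sub_pos.2 x.2.2),
      le_sub_comm]
  · have h := nr (op := D.op) hz fun x =>
      ((Real.log (ρ ^ 2) - Real.log (ρ ^ 2 - ns (χ (f x) - χ y₀)) : ℝ) : ℂ)
    refine (congrArg (fun A => (w' i.1 z - A).PosSemidef) ?_).mp (tgt (P := fun z =>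
      (w' i.1 z - gg _ _ z).PosSemidef) hz.1 (k4 _ _ (At.of_target i.2 hz.1) hz.2.2))
    ext j k
    change dz j _ _ * dzb k _ _ = dz j _ _ * dzb k _ _
    rw [C2.dz_congr j h, C2.dzb_congr k h]
  · simp only [tf]
    have h := S.τne _ hx (b3 (b4 x.2))
    rwa [← op.isOpenEmbedding_subtypeVal.map_nhds_eq, frequently_map] at h

end Vale.Agent.P281Z.Rg
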